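import Crest.Agent.N250.B1.Defs
import Crest.Agent.N250.B2.Defs2
import Crest.Agent.N250.HJ.Defs

/-!
# Row 250, joint `XiS → Rx` (helper62): the reduced function at the cut `X`

`M = N + 1`, solver constant `KK N = 7 M / 4`, level `TL N X = X² + 4 log X² + c0 N`.
-/

set_option autoImplicit false
open Set Filter Topology

noncomputable section

namespace Crest.Agent.N250.Gi

open B2

/-- the constant `K` of the end solver used with the far slope of order `N` -/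
def KK (N : ℕ) : ℝ := 7 * ((N : ℝ) + 1) / 4

/-- the constant in the level -/
def c0 (N : ℕ) : ℝ := 4 * ((N : ℝ) + 1) - 2 - 2 * Real.log (4 * ((N : ℝ) + 1))

/-- the level of the cut `X` -/
def TL (N : ℕ) (X : ℝ) : ℝ := X ^ 2 + 4 * Real.log (X ^ 2) + c0 N

/-- `log X² - Log η(X)` -/
def Lam (X : ℝ) (a : ℂ) : ℂ := (Real.log (X ^ 2) : ℝ) - Complex.log (B1.et a X)

/-- the renormalised far parameter -/
def hat (X : ℝ) (a : ℂ) : ℂ := a + a ^ 2 * Lam X a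

variable {ι κ : Type}

/-- the domain of `f X` -/
def DX (N : ℕ) (r δ X : ℝ) : Set (ι ⊕ κ → ℂ) := DomB r δ (fun _ => 0) (TL N X)

variable [Fintype ι] [Fintype κ]

/-- the reduced function `f X z` with all ends cut at `X`; `al X z j` is the far parameter `a'` of the
end `j`.  `C0` must not depend on `N`. -/
structure Fx (N : ℕ) (C0 : ℝ) (f : ℝ → (ι ⊕ κ → ℂ) → ℂ) (al : ℝ → (ι ⊕ κ → ℂ) → κ → ℂ)
    (r δ X0 k C : ℝ) : Prop where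
  r_pos : 0 < r
  δ_pos : 0 < δ
  δ_le : δ ≤ 1 / 2
  k_pos : 0 < k
  hol : ∀ X, X0 < X → DifferentiableOn ℂ (f X) (DX N r δ X)
  bdd : ∀ X, X0 < X → ∀ z ∈ DX N r δ X, ‖f X z‖ ≤ C
  real : ∀ X, X0 < X → ∀ x : ι ⊕ κ → ℝ, ofR x ∈ DX N r δ X → (f X (ofR x)).im = 0
  c1 : ContDiffOn ℝ 1 (fun p : ℝ × (ι ⊕ κ → ℂ) => f p.1 p.2) {p | X0 < p.1 ∧ p.2 ∈ DX N r δ p.1}
  cont : ∀ j, ContinuousOn (fun p : ℝ × (ι ⊕ κ → ℂ) => al p.1 p.2 j)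
    {p | X0 < p.1 ∧ p.2 ∈ DX N r δ p.1}
  adm : ∀ X, X0 < X → ∀ z ∈ DX N r δ X, ∀ j, B1.Adm (KK N) X (al X z j)
  pos : ∀ X, X0 < X → ∀ z ∈ DX N r δ X, ∀ j,
    ‖hat X (al X z j) - aa z j‖ ≤ (C0 / ((N : ℝ) + 1) + C * X ^ (-k)) / X ^ 4
  dX : ∀ X, X0 < X → ∀ z ∈ DX N r δ X,
    ‖deriv (fun s : ℝ => f s z) X + 2 * Real.pi * ∑ j, HJ.R N X (B1.et (al X z j) X)‖ ≤
      Fintype.card κ * (C * Real.exp (-X ^ 2 / 4) * X ^ (-(2 + k)))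

/-- the cut as a function of the level -/
def XL (N : ℕ) : ℝ → ℝ := Function.invFunOn (TL N) (Ioi 0)

/-- the instance of the interface `Rx`: the reduced function at the level `B` is `f (XL N B)` -/
def GiS : Prop := ∀ (C0 : ℝ) (p : ℕ), ∃ N0 : ℕ, ∀ N, N0 ≤ N →
  ∀ (ι κ : Type) [Fintype ι] [Fintype κ] (f : ℝ → (ι ⊕ κ → ℂ) → ℂ)
    (al : ℝ → (ι ⊕ κ → ℂ) → κ → ℂ) (r δ X0 k C : ℝ), Fintype.card κ = p →
    Fx N C0 f al r δ X0 k C → ∃ m φ M ω B0 C' g,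
      Rx (fun B => f (XL N B)) m φ M ω (fun _ => 0) r δ B0 C' g

/-- what the reduction gets back at the cut `X` -/
def ConclX (N : ℕ) (f : ℝ → (ι ⊕ κ → ℂ) → ℂ) : Prop :=
  ∃ (n : ℕ) (μ C r' X1 : ℝ) (f0 : ℂ), 1 < μ ∧ μ ≤ 2 ∧ 0 < C ∧ 0 < r' ∧
    ∀ X, X1 < X → ‖f X 0 - f0‖ ≤ C * Real.exp (-TL N X / 4) ∧
      ∀ x : ι ⊕ κ → ℝ, ‖x‖ < r' → ‖aa x‖ ≤ 1 / TL N X →
        ‖aa x‖ ^ n ≤ C * (‖fderiv ℂ (f X) (ofR x)‖ + Real.exp (-TL N X / 8)) ∧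
        ‖f X (ofR x) - f0‖ ≤ C * (‖fderiv ℂ (f X) (ofR x)‖ + Real.exp (-TL N X / 8)) ^ μ

end Crest.Agent.N250.Gi

end
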