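import Crest.Agent.N250.Gi.Fe
import Crest.Agent.N250.Gi.Cj
import Crest.Agent.N250.Gl.Fix

/-!
# Row 250 (helper68): `R0.Glued` from its pieces
-/

set_option autoImplicit false
set_option linter.unusedSectionVars false
open Set Complex Metric Filter Topology

noncomputable section

namespace Crest.Agent.N250.Gi

open B1 R0
open B2 (ofR)

theorem S_le {N : ℕ} {X V : ℂ} (hN0 : HJ.N0 ≤ N) (h : HJ.Adm N X V) (x0 : 0 < X.re)
    (hi : |X.im| ≤ X.re) : ‖HJ.S N X V‖ ≤ 12 / X.re := by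
  have h1 : ‖HJ.EE X V‖ ≤ 1 := by
    rw [HJ.EE, Complex.norm_exp]
    refine Real.exp_le_one_iff.2 ?_
    have : (-X ^ 2 / 4 - V / 2).re = -(X.re ^ 2 - X.im ^ 2) / 4 - V.re / 2 := by
      simp only [sub_re, div_ofNat_re, neg_re, sq, mul_re]
    rw [this]
    nlinarith [h.hV, sq_abs X.im, abs_nonneg X.im]
  have h2 : ‖HJ.rr V‖ ≤ 3 := by
    rw [HJ.norm_rr]; exact Real.sqrt_le_iff.2 ⟨by norm_num, by linarith [h.hV']⟩
  have h3 : ‖1 - HJ.eN N (HJ.ww X V) - V / X ^ 2‖ ≤ 2 := by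
    have k1 := HJ.norm_eN_le h.hw
    have k2 := h.w_small hN0
    have k3 := mul_le_mul h.hV' h.y_le (norm_nonneg _) (by norm_num)
    rw [← norm_mul, mul_one_div] at k3
    have k4 := norm_sub_le (1 - HJ.eN N (HJ.ww X V)) (V / X ^ 2)
    have k5 := norm_sub_le 1 (HJ.eN N (HJ.ww X V))
    rw [norm_one] at k5
    linarith
  rw [HJ.S, norm_mul, norm_div, norm_mul, norm_mul, norm_neg, Complex.norm_two]
  have h4 := re_le_norm X
  calc _ ≤ 2 * 1 * 3 / X.re * 2 := by gcongr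
    _ = _ := by ring

variable {ι κ : Type} [Fintype ι] [Fintype κ] {ℓ : Ell}

theorem domA_mono {r r' K K' X : ℝ} (hr : r ≤ r') (hK : K' ≤ K) :
    DomA (ι := ι) (κ := κ) r K X ⊆ DomA r' K' X :=
  fun _ h => ⟨fun i => (h.1 i).trans_le hr, fun j => adm_mono hK (h.2 j)⟩

theorem om_mono {r r' K K' X0 X1 θ : ℝ} (hr : r ≤ r') (hK : K' ≤ K) (hX : X1 ≤ X0) :
    Om (ι := ι) (κ := κ) r K X0 θ ⊆ Om r' K' X1 θ :=
  fun _ h => ⟨hX.trans_lt h.1, h.2.1, domA_mono hr hK h.2.2⟩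

theorem En.Sj_le {U : Par ℓ → Jt ℓ} {N : ℕ} {b : ℂ × (ι ⊕ κ → ℂ) → Wi (omP 2)}
    {R K K1 g g' ε ε1 C r' X0 θ : ℝ} (h : En U N b R K K1 g g' ε ε1 C r' X0 θ) (j : κ)
    {q : ℂ × (ι ⊕ κ → ℂ)} (hq : q ∈ Om r' K X0 θ) : ‖Sj N j q‖ ≤ 12 / q.1.re := by
  have h4 : 4 ≤ q.1.re := by linarith [h.big.X4, hq.1]
  exact S_le h.big.N0 (h.hj j hq) (by linarith)
    ((h.ow j hq).2.1.le.trans ((inv_le_one_of_one_le₀ (by linarith)).trans (by linarith)))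

/-- the pieces, on the larger domain: `A` = total action, `Z` = pairings, `β` = rotation parameters,
`b j` = inner datum of the end `j` -/
structure Pc {F : Type*} [NormedAddCommGroup F] [NormedSpace ℂ F] (U : Par ℓ → Jt ℓ) (N : ℕ)
    (b : κ → ℂ × (ι ⊕ κ → ℂ) → Wi (omP 2)) (A : ℂ × (ι ⊕ κ → ℂ) → ℂ)
    (Z cc : ℂ × (ι ⊕ κ → ℂ) → ι ⊕ κ → ℂ) (β : ℂ × (ι ⊕ κ → ℂ) → F)
    (Θ : (ι ⊕ κ → ℂ) → ι ⊕ κ → ℂ) (A0 C0 R K1 g g' ε ε1 C r' X1 θ CB k : ℝ) : Prop where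
  r0 : 0 < r'
  θ0 : 0 < θ
  θ1 : θ ≤ 1
  k0 : 0 < k
  CB0 : 0 ≤ CB
  ex : Ex g g'
  en : ∀ j, En U N (b j) R (KK N - 1 / 4) K1 g g' ε ε1 C r' X1 θ
  hA : DifferentiableOn ℂ A (Om r' (KK N - 1 / 4) X1 θ)
  hZ : DifferentiableOn ℂ Z (Om r' (KK N - 1 / 4) X1 θ)
  hβ : DifferentiableOn ℂ β (Om r' (KK N - 1 / 4) X1 θ)
  bd : ∀ q ∈ Om r' (KK N - 1 / 4) X1 θ, ‖A q‖ ≤ CB ∧ ‖Z q‖ ≤ CB ∧ ‖β q‖ ≤ CB
  inl : ∀ q ∈ Om r' (KK N - 1 / 4) X1 θ, ∀ i, Z q (Sum.inl i) = q.2 (Sum.inl i)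
  real : ∀ X : ℝ, X1 < X → ∀ x : ι ⊕ κ → ℝ, ofR x ∈ DomA r' (KK N - 1 / 4) X →
    (A (X, ofR x)).im = 0 ∧ ∀ l, (Z (X, ofR x) l).im = 0
  var : ∀ X : ℝ, X1 < X → ∀ w ∈ DomA r' (KK N - 1 / 4) X, ∀ (ξ : ℂ) (v : ι ⊕ κ → ℂ), ∃ T : κ → ℂ,
    (∀ j, ‖T j‖ ≤ CB * Real.exp (-X ^ 2 / 4) * X ^ (-(2 * g)) * ‖fderiv ℂ β (X, w) (ξ, v)‖) ∧
    fderiv ℂ A (X, w) (ξ, v) = ∑ l, cc (X, w) l * fderiv ℂ Z (X, w) (ξ, v) l +
      ∑ j, (Far.farI R X (w (Sum.inr j)) (Jq U N j (b j) (X, w)) ξ (v (Sum.inr j))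
        (fderiv ℂ (Jq U N j (b j)) (X, w) (ξ, v)) + T j)
  est : ∀ X : ℝ, X1 < X → ∀ w ∈ DomA r' (KK N - 1 / 4) X,
    ‖Z (X, w) - Θ (hz X w)‖ ≤ (C0 / ((N : ℝ) + 1) + CB * X ^ (-k)) / X ^ 4
  base : Tendsto (fun X : ℝ => A (X, 0)) atTop (𝓝 (A0 : ℂ))

/-- action minus boundary action -/
def FFo (N : ℕ) (A : ℂ × (ι ⊕ κ → ℂ) → ℂ) (q : ℂ × (ι ⊕ κ → ℂ)) : ℂ :=
  A q - 2 * Real.pi * ∑ j, Sj N j q

theorem mk_zero : mk (0 : ι ⊕ κ → ℂ) 0 = 0 := by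
  funext l; cases l <;> rfl

theorem Pc.glued {F : Type*} [NormedAddCommGroup F] [NormedSpace ℂ F] {U : Par ℓ → Jt ℓ} {N : ℕ}
    {b : κ → ℂ × (ι ⊕ κ → ℂ) → Wi (omP 2)} {A : ℂ × (ι ⊕ κ → ℂ) → ℂ}
    {Z cc : ℂ × (ι ⊕ κ → ℂ) → ι ⊕ κ → ℂ} {β : ℂ × (ι ⊕ κ → ℂ) → F}
    {Θ : (ι ⊕ κ → ℂ) → ι ⊕ κ → ℂ} {A0 C0 C1 R K1 g g' ε ε1 C r0 r' X1 θ CB k : ℝ}
    (h : Pc U N b A Z cc β Θ A0 C0 R K1 g g' ε ε1 C r' X1 θ CB k) (hT : Gl.Th Θ r0 C1)
    (hC : C1 ≤ C0) : ∃ r X0 C' k', Glued N C0 (FFo N A) Z cc Θ A0 r X0 θ C' k' := by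
  have r0' := h.r0
  have t0 := h.θ0
  have c0 := h.CB0
  have K0 : 0 < KK N := by unfold KK; positivity
  have p0 : (0 : ℝ) ≤ Fintype.card κ := Nat.cast_nonneg _
  set r := min r0 (r' / 2) with hr
  set X0 := |X1| + 1 + 4 + KK N + 2 / r' with hX0
  set k' := min k (2 * g - 3) with hk'
  set C2 := (5000 + 32 * CB * CB) / θ with hC2
  have C20 : 0 ≤ C2 := by positivity
  have q0 : 0 < 2 / r' := by positivity
  have a1 := le_abs_self X1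
  have a0 := abs_nonneg X1
  have r1 : r ≤ r' := (min_le_right _ _).trans (by linarith)
  have rp : 0 < r := lt_min hT.r_pos (by linarith)
  have sub : Om (ι := ι) (κ := κ) r (KK N) X0 θ ⊆ Om r' (KK N - 1 / 4) X1 θ :=
    om_mono r1 (by linarith) (by linarith)
  have subA : ∀ X, DomA (ι := ι) (κ := κ) r (KK N) X ⊆ DomA r' (KK N - 1 / 4) X := fun X =>
    domA_mono r1 (by linarith)
  have subB : ball (0 : ι ⊕ κ → ℂ) r ⊆ ball 0 r0 := ball_subset_ball (min_le_left _ _)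
  have rm : ∀ X : ℝ, X0 < X → ∀ w ∈ DomA (ι := ι) (κ := κ) r (KK N) X, Rm r r' (KK N) X1 θ X w :=
    fun X hX w hw => ⟨t0, h.θ1, K0.le, by linarith, by nlinarith, by linarith, by
      have : X⁻¹ ≤ r' / 2 := by
        rw [inv_le_comm₀ (by linarith) (by linarith), inv_div]; linarith
      linarith [min_le_right r0 (r' / 2)], hw⟩
  have hS : ∀ q ∈ Om (ι := ι) (κ := κ) r' (KK N - 1 / 4) X1 θ, 0 < q.1.re →
      ‖2 * Real.pi * ∑ j, Sj N j q‖ ≤ 96 * Fintype.card κ / q.1.re := fun q hq x0 => by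
    have k1 := (norm_sum_le _ _).trans (Finset.sum_le_card_nsmul Finset.univ _ _
      fun j _ => (h.en j).Sj_le j hq)
    rw [nsmul_eq_mul, Finset.card_univ] at k1
    rw [norm_mul, norm_mul, Complex.norm_two, norm_real, Real.norm_of_nonneg Real.pi_pos.le]
    calc _ ≤ 2 * 4 * (Fintype.card κ * (12 / q.1.re)) := by gcongr; exact Real.pi_le_four
      _ = _ := by ring
  refine ⟨r, X0, CB + 96 * Fintype.card κ + C2, k', rp, t0, lt_min h.k0 (by linarith [h.ex.1]),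
    (h.hA.mono sub).sub ((DifferentiableOn.fun_sum fun j _ =>
      ((h.en j).diff_Sj j).mono sub).const_mul _), h.hZ.mono sub, fun q hq => ⟨?_, ?_⟩,
    fun q hq => h.inl q (sub hq), fun X hX x hx => ⟨?_, (h.real X (by linarith) x (subA X hx)).2⟩,
    fun X hX w hw ξ v => ?_, hT.hΘ.mono subB, fun z hz => hT.Θ_inl z (subB hz), hT.Θ_zero,
    fun x hx => hT.Θ_real x (hx.trans_le (min_le_left _ _)),
    fun α => (hT.jac α).trans (mul_le_mul_of_nonneg_right hC (norm_nonneg _)),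
    fun X hX w hw => (h.est X (by linarith) w (subA X hw)).trans ?_, fun _ => 0, by simp, ?_⟩
  · have x1 : 1 ≤ q.1.re := by linarith [hq.1]
    have k1 := (hS q (sub hq) (by linarith)).trans (div_le_self (by positivity) x1)
    refine (norm_sub_le _ _).trans ?_
    linarith [(h.bd q (sub hq)).1]
  · linarith [(h.bd q (sub hq)).2.1]
  · have k1 : ∀ j, (Sj N j ((X : ℂ), ofR x)).im = 0 := fun j =>
      Cj.S_im N X ((h.en j).hj j (rm X hX _ hx).self).hV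
    simp [FFo, (h.real X (by linarith) x (subA X hx)).1, im_sum, k1]
  · obtain ⟨T, h1, h2⟩ := h.var X (by linarith) w (subA X hw) ξ v
    have hw' := rm X hX w hw
    refine (form_of h.en hw' (h.hA.differentiableAt hw'.nhds) h.hβ (fun q hq => (h.bd q hq).2.2) c0
      h1 h2).trans ?_
    have x1 : 1 ≤ X := by linarith
    have k1 : X ^ (-(2 + (2 * g - 3))) ≤ X ^ (-(2 + k')) :=
      Real.rpow_le_rpow_of_exponent_le x1 (by linarith [min_le_right k (2 * g - 3)])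
    gcongr
    linarith
  · have x1 : 1 ≤ X := by linarith
    have k1 : X ^ (-k) ≤ X ^ (-k') :=
      Real.rpow_le_rpow_of_exponent_le x1 (by linarith [min_le_left k (2 * g - 3)])
    gcongr
    linarith
  · simp only [mk_zero, FFo]
    have k1 : Tendsto (fun X : ℝ => 2 * Real.pi * ∑ j, Sj N j ((X : ℂ), (0 : ι ⊕ κ → ℂ))) atTop
        (𝓝 0) := by
      refine squeeze_zero_norm' ?_
        (tendsto_const_nhds (x := 96 * (Fintype.card κ : ℝ)).div_atTop tendsto_id)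
      filter_upwards [eventually_gt_atTop X0] with X hX
      refine hS _ (rm X hX 0 ⟨fun _ => by simpa using rp, fun j => ?_⟩).self (by simp; linarith)
      have : 2 * KK N / X ^ 2 < 1 := by rw [div_lt_one (by nlinarith)]; nlinarith
      simp only [Adm, Pi.zero_apply, zero_mul, zero_div, zero_sub, norm_neg]
      rw [show ‖(1 / 8 : ℂ)‖ = 1 / 8 by simp]
      linarith
    simpa using h.base.sub k1

end Crest.Agent.N250.Gi

end
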