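import Crest.Agent.N250.Gi.Wf
import Crest.Agent.N250.R0.Stm
import Crest.Agent.N250.B1.Far3
import Crest.Agent.N250.B1.Conj

/-!
# Row 250 (helper68): the error term of the first variation of the glued action
-/

set_option autoImplicit false
set_option linter.unusedSectionVars false
open Set Complex Metric Filter Topology

noncomputable section

namespace Crest.Agent.N250.Gi

open B1 R0

/-- moving the cut and the far parameter costs `1/4` in `K` -/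
theorem adm_step {K X s : ℝ} {a d : ℂ} (hK : 0 ≤ K) (h4 : 4 ≤ X) (hKX : 4 * K ≤ X ^ 2)
    (h : Adm K X a) (hs : |s| ≤ 1 / (16 * X)) (hd : ‖d‖ ≤ 1 / (16 * X ^ 4)) :
    Adm (K - 1 / 4) (X + s) (a + d) := by
  have x0 : 0 < X := by linarith
  have x2 : 16 ≤ X ^ 2 := by nlinarith
  have s1 : |s| * X ≤ 1 / 16 := by rw [le_div_iff₀ (by positivity)] at hs; linarith
  have s2 : |s| ≤ 1 / 64 := by nlinarith [abs_nonneg s]
  have e1 : |(X + s) ^ 2 - X ^ 2| ≤ 3 / 16 := by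
    rw [show (X + s) ^ 2 - X ^ 2 = 2 * (s * X) + s * s by ring]
    refine (abs_add_le _ _).trans ?_
    rw [abs_mul, abs_mul, abs_mul, abs_of_pos x0, abs_two]
    nlinarith [abs_nonneg s]
  obtain ⟨e2, e3⟩ := abs_le.1 e1
  have y0 : 0 < (X + s) ^ 2 := by linarith
  have a1 := adm_norm hK h
  have e : (a + d) * ((X + s : ℝ) : ℂ) ^ 2 / 2 - 1 / 8 = (a * X ^ 2 / 2 - 1 / 8) +
      a * ((((X + s) ^ 2 - X ^ 2) / 2 : ℝ) : ℂ) + d * (((X + s) ^ 2 / 2 : ℝ) : ℂ) := by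
    push_cast; ring
  have k1 : ‖a * ((((X + s) ^ 2 - X ^ 2) / 2 : ℝ) : ℂ)‖ ≤ 15 / 64 / X ^ 2 := by
    rw [norm_mul, norm_real, Real.norm_eq_abs, abs_div, abs_two, le_div_iff₀ (by positivity)]
    have := mul_le_mul a1 e1 (abs_nonneg _) (by norm_num)
    linarith
  have k2 : ‖d * (((X + s) ^ 2 / 2 : ℝ) : ℂ)‖ ≤ 1 / 16 / X ^ 2 := by
    rw [norm_mul, norm_real, Real.norm_eq_abs, abs_of_pos (by positivity),
      le_div_iff₀ (by positivity)]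
    rw [le_div_iff₀ (by positivity)] at hd
    have : (X + s) ^ 2 / 2 * X ^ 2 ≤ X ^ 4 := by nlinarith
    nlinarith [mul_le_mul_of_nonneg_left this (norm_nonneg d)]
  have k3 : 2 * (K - 1 / 4) / (X + s) ^ 2 ≤ (2 * K - 5 / 16) / X ^ 2 := by
    rw [div_le_div_iff₀ y0 (by positivity)]
    nlinarith [mul_le_mul_of_nonneg_left e2 hK]
  have k4 : 15 / 64 / X ^ 2 + 1 / 16 / X ^ 2 + (2 * K - 5 / 16) / X ^ 2 ≤ 2 * K / X ^ 2 := by
    rw [← add_div, ← add_div]; gcongr; linarith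
  unfold Adm at h ⊢
  rw [e]
  have := norm_add₃_le (a := a * X ^ 2 / 2 - 1 / 8)
    (b := a * ((((X + s) ^ 2 - X ^ 2) / 2 : ℝ) : ℂ)) (c := d * (((X + s) ^ 2 / 2 : ℝ) : ℂ))
  linarith

variable {ι κ : Type} [Fintype ι] [Fintype κ]

/-- a real point of the smaller domain, with room -/
structure Rm (r r' K X0 θ X : ℝ) (w : ι ⊕ κ → ℂ) : Prop where
  θ0 : 0 < θ
  θ1 : θ ≤ 1
  K0 : 0 ≤ K
  X4 : 4 ≤ X
  KX : 4 * K ≤ X ^ 2
  X0le : X0 + 1 ≤ X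
  rr : r + X⁻¹ ≤ r'
  mem : w ∈ DomA r K X

namespace Rm

variable {r r' K X0 θ X : ℝ} {w : ι ⊕ κ → ℂ} (h : Rm r r' K X0 θ X w)
include h

theorem step {δ : ℂ} {d : ι ⊕ κ → ℂ} (hδ : ‖δ‖ < θ / (16 * X)) (hd : ‖d‖ < θ / (16 * X ^ 4)) :
    ((X : ℂ) + δ, w + d) ∈ Om r' (K - 1 / 4) X0 θ := by
  have h4 := h.X4
  have x0 : 0 < X := by linarith
  have t1 : θ / (16 * X) ≤ 1 / (16 * X) := by gcongr; exact h.θ1
  have t2 : θ / (16 * X ^ 4) ≤ 1 / (16 * X ^ 4) := by gcongr; exact h.θ1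
  have t3 : 1 / (16 * X) ≤ 1 / 32 := one_div_le_one_div_of_le (by norm_num) (by linarith)
  have t4 : 1 / (16 * X ^ 4) ≤ X⁻¹ := by
    rw [← one_div]
    refine one_div_le_one_div_of_le x0 ?_
    nlinarith [one_le_pow₀ (show 1 ≤ X by linarith) (n := 3)]
  have s1 : |δ.re| ≤ 1 / (16 * X) := (abs_re_le_norm δ).trans (hδ.le.trans t1)
  obtain ⟨s2, s3⟩ := abs_le.1 (s1.trans t3)
  have e : ((X : ℂ) + δ).re = X + δ.re := by simp
  refine ⟨?_, ?_, fun i => ?_, fun j => ?_⟩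
  · change X0 < ((X : ℂ) + δ).re
    rw [e]; linarith [h.X0le]
  · change |((X : ℂ) + δ).im| < θ / ((X : ℂ) + δ).re
    rw [e, add_im, ofReal_im, zero_add]
    refine ((abs_im_le_norm δ).trans_lt hδ).trans_le ?_
    have := h.θ0
    gcongr
    · linarith
    · linarith
  · refine (norm_add_le _ _).trans_lt ?_
    linarith [h.mem.1 i, norm_le_pi_norm d (Sum.inl i), h.rr]
  · change Adm _ ((X : ℂ) + δ).re _
    rw [e]
    exact adm_step h.K0 h4 h.KX (h.mem.2 j) s1 ((norm_le_pi_norm d _).trans (hd.le.trans t2))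

theorem nhds : Om r' (K - 1 / 4) X0 θ ∈ 𝓝 ((X : ℂ), w) := by
  have x1 : 1 ≤ X := by linarith [h.X4]
  have := h.θ0
  refine mem_of_superset (ball_mem_nhds _ (show 0 < θ / (16 * X ^ 4) by positivity)) fun q hq => ?_
  rw [mem_ball_iff_norm] at hq
  have e : q = ((X : ℂ) + (q - ((X : ℂ), w)).1, w + (q - ((X : ℂ), w)).2) := by simp
  rw [e]
  refine h.step (((norm_fst_le _).trans_lt hq).trans_le ?_) ((norm_snd_le _).trans_lt hq)
  gcongr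
  exact le_self_pow₀ x1 (by norm_num)

theorem self : ((X : ℂ), w) ∈ Om r' (K - 1 / 4) X0 θ := mem_of_mem_nhds h.nhds

/-- **plain Cauchy estimate** on the domain of the glued family -/
theorem fd {F : Type*} [NormedAddCommGroup F] [NormedSpace ℂ F] {G : ℂ × (ι ⊕ κ → ℂ) → F} {M : ℝ}
    (hG : DifferentiableOn ℂ G (Om r' (K - 1 / 4) X0 θ))
    (hM : ∀ q ∈ Om r' (K - 1 / 4) X0 θ, X / 2 ≤ q.1.re → ‖G q‖ ≤ M) (ξ : ℂ) (v : ι ⊕ κ → ℂ) :
    ‖fderiv ℂ G (X, w) (ξ, v)‖ ≤ 32 * M / θ * (X * (‖ξ‖ + X ^ 3 * ‖v‖)) := by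
  have x0 : 0 < X := by linarith [h.X4]
  have t0 := h.θ0
  have M0 : 0 ≤ M := (norm_nonneg _).trans (hM _ h.self (by simp; linarith))
  set n := X * (‖ξ‖ + X ^ 3 * ‖v‖) with hn
  rcases (show 0 ≤ n by positivity).eq_or_lt with n0 | n0
  · have h1 : ‖ξ‖ + X ^ 3 * ‖v‖ = 0 := (mul_eq_zero.1 n0.symm).resolve_left x0.ne'
    obtain ⟨h2, h3⟩ := (add_eq_zero_iff_of_nonneg (norm_nonneg _) (by positivity)).1 h1
    rw [norm_eq_zero.1 h2, norm_eq_zero.1 ((mul_eq_zero.1 h3).resolve_left (by positivity)),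
      Prod.mk_zero_zero, map_zero, norm_zero]
    positivity
  have hl : ∀ t : ℂ, HasDerivAt (fun t : ℂ => ((X : ℂ) + t • ξ, w + t • v)) (ξ, v) t := fun t => by
    have k1 := ((hasDerivAt_id t).smul_const ξ).const_add (X : ℂ)
    have k2 := ((hasDerivAt_id t).smul_const v).const_add w
    simpa using k1.prodMk k2
  have hb : ∀ t ∈ ball (0 : ℂ) (θ / (16 * n)), ‖t • ξ‖ < θ / (16 * X) ∧ ‖t • v‖ < θ / (16 * X ^ 4) :=
    fun t ht => by
      rw [mem_ball_zero_iff, lt_div_iff₀ (by positivity)] at ht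
      have k1 := mul_nonneg (norm_nonneg t) (norm_nonneg ξ)
      have k2 := mul_nonneg (norm_nonneg t) (norm_nonneg v)
      have k3 : ‖t‖ * (16 * n) = ‖t‖ * ‖ξ‖ * (16 * X) + ‖t‖ * ‖v‖ * (16 * X ^ 4) := by rw [hn]; ring
      rw [norm_smul, norm_smul, lt_div_iff₀ (by positivity), lt_div_iff₀ (by positivity)]
      constructor <;> nlinarith [mul_nonneg k1 x0.le, mul_nonneg k2 (pow_pos x0 4).le]
  have h1 : HasDerivAt (fun t : ℂ => G ((X : ℂ) + t • ξ, w + t • v)) (fderiv ℂ G (X, w) (ξ, v)) 0 :=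
    HasFDerivAt.comp_hasDerivAt_of_eq (0 : ℂ) (hG.differentiableAt h.nhds).hasFDerivAt (hl 0)
      (by simp)
  rw [← h1.deriv, norm_deriv_eq_norm_fderiv]
  refine (H.fd_le (M := M) (r := θ / (16 * n)) (by positivity)
    (hG.comp (fun t _ => (hl t).differentiableAt.differentiableWithinAt) fun t ht =>
      h.step (hb t ht).1 (hb t ht).2) fun t ht => hM _ (h.step (hb t ht).1 (hb t ht).2) ?_).trans
    (le_of_eq (by field_simp; ring))
  have k1 : θ / (16 * X) ≤ 1 := by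
    rw [div_le_one (by positivity)]; linarith [h.θ1, h.X4]
  have k2 := (abs_le.1 ((abs_re_le_norm _).trans ((hb t ht).1.le.trans k1))).1
  change X / 2 ≤ ((X : ℂ) + t • ξ).re
  rw [add_re, ofReal_re]
  linarith [h.X4]

end Rm

/-- the boundary action of the end `j` -/
def Sj (N : ℕ) (j : κ) (q : ℂ × (ι ⊕ κ → ℂ)) : ℂ := HJ.S N q.1 (et (q.2 (Sum.inr j)) q.1)

theorem fd_Sj {N : ℕ} {j : κ} {X : ℂ} {w : ι ⊕ κ → ℂ} (h : HJ.Adm N X (et (w (Sum.inr j)) X)) :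
    DifferentiableAt ℂ (Sj N j) (X, w) ∧ ∀ (ξ : ℂ) (v : ι ⊕ κ → ℂ), fderiv ℂ (Sj N j) (X, w) (ξ, v) =
      HJ.EE X (et (w (Sum.inr j)) X) * HJ.rr (et (w (Sum.inr j)) X) *
          HJ.nu N X (et (w (Sum.inr j)) X) * ξ +
        -2 * HJ.EE X (et (w (Sum.inr j)) X) * HJ.tau N X (et (w (Sum.inr j)) X) /
          (X * HJ.rr (et (w (Sum.inr j)) X)) *
          (v (Sum.inr j) * (X ^ 2 - 2) / 2 + w (Sum.inr j) * X * ξ) := by
  have h1 : HasFDerivAt (fun q : ℂ × (ι ⊕ κ → ℂ) => q.1) (ContinuousLinearMap.fst ℂ _ _) (X, w) :=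
    hasFDerivAt_fst
  have h2 : HasFDerivAt (fun q : ℂ × (ι ⊕ κ → ℂ) => q.2 (Sum.inr j))
      ((ContinuousLinearMap.proj (R := ℂ) (φ := fun _ : ι ⊕ κ => ℂ) (Sum.inr j)).comp
        (ContinuousLinearMap.snd ℂ ℂ (ι ⊕ κ → ℂ))) (X, w) :=
    ((ContinuousLinearMap.proj (R := ℂ) (φ := fun _ : ι ⊕ κ => ℂ) (Sum.inr j)).comp
      (ContinuousLinearMap.snd ℂ ℂ (ι ⊕ κ → ℂ))).hasFDerivAt
  have h3 := (((h2.mul ((h1.mul h1).sub_const 2)).const_mul (2⁻¹ : ℂ)).const_add 1)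
  have h4 := HJ.hasFDerivAt_S_comp N (V := fun q : ℂ × (ι ⊕ κ → ℂ) => et (q.2 (Sum.inr j)) q.1) h1
    (h3.congr_of_eventuallyEq (Eventually.of_forall fun q => by simp only [et, Pi.mul_apply]; ring))
    h.hX h.hV
  refine ⟨h4.differentiableAt, fun ξ v => ?_⟩
  rw [show Sj N j = fun q : ℂ × (ι ⊕ κ → ℂ) => HJ.S N q.1 (et (q.2 (Sum.inr j)) q.1) from rfl,
    h4.fderiv]
  simp
  ring

variable {ℓ : Ell}

/-- the jet of the end `j` in the glued family -/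
def Jq (U : Par ℓ → Jt ℓ) (N : ℕ) (j : κ) (b : ℂ × (ι ⊕ κ → ℂ) → Wi (omP 2))
    (q : ℂ × (ι ⊕ κ → ℂ)) : Jt ℓ := U (wf ℓ N (q.1, q.2 (Sum.inr j), b q))

/-- the end solver and the inner data of the end `j` on the larger domain -/
structure En (U : Par ℓ → Jt ℓ) (N : ℕ) (b : ℂ × (ι ⊕ κ → ℂ) → Wi (omP 2))
    (R K K1 g g' ε ε1 C r' X0 θ : ℝ) : Prop where
  ex : Ex g g'
  big : Big N R K ε X0
  θ1 : θ ≤ 1
  K0 : 0 < K1
  K1le : K1 ≤ K
  C0 : 0 ≤ C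
  Cε : C * (3 / K1 + ε) ≤ ε1
  ε1le : ε1 ≤ 1 / 64
  isEnd : IsEnd R K1 g g' ε ε1 C ℓ U
  hol : DifferentiableOn ℂ b (Om r' K X0 θ)
  bd : ∀ q ∈ Om r' K X0 θ, R ^ g * ‖b q‖ < ε / 2

namespace En

variable {U : Par ℓ → Jt ℓ} {N : ℕ} {b : ℂ × (ι ⊕ κ → ℂ) → Wi (omP 2)}
  {R K K1 g g' ε ε1 C r' X0 θ : ℝ} (h : En U N b R K K1 g g' ε ε1 C r' X0 θ) (j : κ)
  {q : ℂ × (ι ⊕ κ → ℂ)}
include h

theorem ow (hq : q ∈ Om r' K X0 θ) : (q.1, q.2 (Sum.inr j), b q) ∈ Ow R K g ε X0 := by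
  have x0 : 0 < q.1.re := by linarith [h.big.X4, hq.1]
  refine ⟨hq.1, hq.2.1.trans_le ?_, hq.2.2.2 j, h.bd q hq⟩
  change θ / q.1.re ≤ q.1.re⁻¹
  rw [← one_div]
  gcongr
  exact h.θ1

theorem dom (hq : q ∈ Om r' K X0 θ) :
    wf ℓ N (q.1, q.2 (Sum.inr j), b q) ∈ Dom R K1 g g' ε := h.big.mem h.K1le (h.ow j hq)

theorem hj (hq : q ∈ Om r' K X0 θ) : HJ.Adm N q.1 (et (q.2 (Sum.inr j)) q.1) := h.big.hj (h.ow j hq)

theorem sol (hq : q ∈ Om r' K X0 θ) : Sol R (wf ℓ N (q.1, q.2 (Sum.inr j), b q)) (Jq U N j b q) :=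
  h.isEnd.sol _ (h.dom j hq)

theorem inB (hq : q ∈ Om r' K X0 θ) : InB R K1 g g' q.1.re (q.2 (Sum.inr j)) ε1 (Jq U N j b q) :=
  Cj.inB_of h.isEnd h.K0 h.C0 h.Cε (h.dom j hq)

theorem diff : DifferentiableOn ℂ (Jq U N j b) (Om r' K X0 θ) :=
  (h.big.diff_U h.K1le h.isEnd).comp
    (differentiableOn_fst.prodMk (DifferentiableOn.prodMk (by fun_prop) h.hol)) fun _ hq => h.ow j hq

theorem diff_Sj : DifferentiableOn ℂ (Sj N j) (Om (ι := ι) (κ := κ) r' K X0 θ) := fun _ hq =>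
  (fd_Sj (h.hj j hq)).1.differentiableWithinAt

theorem val_le' (hq : q ∈ Om r' K X0 θ) {X : ℝ} (x0 : 0 < X) (hX : X / 2 ≤ q.1.re) (φ : ℝ) :
    ‖val (Jq U N j b q 0) i1 φ‖ ≤ X ^ (-g) := by
  have k0 : 2 ≤ q.1.re := by linarith [h.big.X4, hq.1]
  have hg := h.ex
  have hg2 : g ≤ 2 := by linarith [hg.2.1, hg.2.2]
  have hg0 : 0 ≤ g := by linarith [hg.1]
  refine (far_val_le h.K0.le k0 (h.inB j hq) (h.sol j hq).bc.far0 φ).trans ?_
  have k5 : q.1.re ^ (-g) ≤ (X / 2) ^ (-g) :=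
    Real.rpow_le_rpow_of_nonpos (by linarith) hX (by linarith)
  have k6 : (X / 2) ^ (-g) ≤ 4 * X ^ (-g) := by
    rw [Real.div_rpow (by linarith) (by norm_num), Real.rpow_neg (by norm_num : (0 : ℝ) ≤ 2),
      div_inv_eq_mul, mul_comm]
    refine mul_le_mul_of_nonneg_right ?_ (Real.rpow_nonneg (by linarith) _)
    exact (Real.rpow_le_rpow_of_exponent_le (by norm_num) hg2).trans (by norm_num)
  have k7 := mul_le_mul h.ε1le ((W_le hg h.K0.le k0 (adm_mono h.K1le (hq.2.2.2 j))).trans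
    (mul_le_mul_of_nonneg_left (k5.trans k6) (by norm_num))) (W_nonneg _ _ _ (by linarith))
    (by norm_num)
  linarith

end En

/-- **the far error of one end** -/
theorem far_err {U : Par ℓ → Jt ℓ} {N : ℕ} {b : ℂ × (ι ⊕ κ → ℂ) → Wi (omP 2)}
    {R K K1 g g' ε ε1 C r r' X0 θ X : ℝ} {w : ι ⊕ κ → ℂ}
    (h : En U N b R (K - 1 / 4) K1 g g' ε ε1 C r' X0 θ) (hw : Rm r r' K X0 θ X w) (j : κ) (ξ : ℂ)
    (v : ι ⊕ κ → ℂ) :
    ‖Far.farI R X (w (Sum.inr j)) (Jq U N j b (X, w)) ξ (v (Sum.inr j))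
          (fderiv ℂ (Jq U N j b) (X, w) (ξ, v)) -
        2 * Real.pi * fderiv ℂ (Sj N j) (X, w) (ξ, v) +
        2 * Real.pi * ξ * HJ.R N X (et (w (Sum.inr j)) X)‖ ≤
      5000 / θ * Real.exp (-X ^ 2 / 4) * X ^ (-(2 * g)) * (‖ξ‖ + X ^ 3 * ‖v‖) := by
  have h4 := hw.X4
  have x0 : 0 < X := by linarith
  have t0 := hw.θ0
  have t1 := hw.θ1
  have hq := hw.self
  have hJ := ((h.diff j).differentiableAt hw.nhds).hasFDerivAt
  set J' := fderiv ℂ (Jq U N j b) (X, w) (ξ, v) with hJ'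
  set a := w (Sum.inr j) with ha
  set n := ‖ξ‖ + X ^ 3 * ‖v‖ with hn
  have hj : HJ.Adm N X (et a X) := h.hj j hq
  have h0 : Wi.co (J' 0) 0 i1 = 0 := by
    have k1 := (coefL ℓ 0 0 i1).hasFDerivAt.comp _ hJ
    have k2 : HasFDerivAt (fun _ => (0 : ℂ)) _ ((X : ℂ), w) := k1.congr_of_eventuallyEq
      (mem_of_superset hw.nhds fun q hq => ((h.sol j hq).bc.far0).symm)
    have := congrArg (fun L => L (ξ, v)) (k2.unique (hasFDerivAt_const (0 : ℂ) _))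
    exact this
  have hD : ∀ φ, ‖val (J' 0) i1 φ‖ ≤ 32 * X ^ (-g) / θ * (X * n) := fun φ => by
    have k1 := ((valL ℓ 0 i1 φ).hasFDerivAt.comp _ hJ).fderiv
    have k2 := hw.fd ((valL ℓ 0 i1 φ).differentiable.comp_differentiableOn (h.diff j))
      (fun q hq hX => h.val_le' j hq x0 hX φ) ξ v
    rw [k1] at k2
    exact k2
  have key := Far.far_form (R := R) (X' := ξ) (a' := v (Sum.inr j)) (h := hN N X a) h.ex h.K0.le
    (by linarith) (adm_mono (h.K1le.trans (by linarith)) (hw.mem.2 j)) h.ε1le (h.sol j hq).jet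
    (h.sol j hq).bc rfl (h.inB j hq) (by rw [hN_add]; exact slope_sq_le h.big.N0 hj) h0 hD
  rw [hN_add, (Far.Mom_slope hj h.big.N0).2, (Far.Mom_slope hj h.big.N0).1] at key
  rw [(fd_Sj hj).2]
  refine le_trans (le_of_eq ?_) (key.trans ?_)
  · congr 1; rw [HJ.R]; ring
  have hs := Far.slope_le hj h.big.N0
  rw [Complex.norm_real, Real.norm_eq_abs, abs_of_pos x0] at hs
  have p0 := Real.rpow_pos_of_pos x0 (-g)
  have n0 : 0 ≤ n := by positivity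
  have hV : ‖v (Sum.inr j) * (X ^ 2 - 2) / 2 + a * X * ξ‖ ≤ n := by
    refine (norm_add_le _ _).trans ?_
    have k1 : ‖(X : ℂ) ^ 2 - 2‖ ≤ 2 * X ^ 3 := by
      refine (norm_sub_le _ _).trans ?_
      rw [norm_pow, norm_real, Real.norm_of_nonneg x0.le, Complex.norm_two]
      nlinarith [mul_pos x0 x0]
    have k2 := mul_le_mul (norm_le_pi_norm v (Sum.inr j)) k1 (norm_nonneg _) (norm_nonneg _)
    have k3 : ‖a‖ * X ≤ 1 := by
      have := adm_norm hw.K0 (hw.mem.2 j)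
      nlinarith [mul_nonneg (norm_nonneg a) x0.le]
    rw [norm_div, norm_mul, norm_mul, norm_mul, norm_real, Real.norm_of_nonneg x0.le,
      Complex.norm_two]
    nlinarith [mul_le_mul_of_nonneg_right k3 (norm_nonneg ξ)]
  have hξ : ‖ξ‖ ≤ n := le_add_of_nonneg_right (by positivity)
  have k1 : X ^ (-g) * (11 * ‖ξ‖ + 2 * ‖v (Sum.inr j) * (X ^ 2 - 2) / 2 + a * X * ξ‖) ≤
      X ^ (-g) * n * (13 / θ) := by
    have : 13 ≤ 13 / θ := by rw [le_div_iff₀ t0]; linarith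
    rw [mul_assoc (X ^ (-g))]
    refine mul_le_mul_of_nonneg_left ?_ p0.le
    nlinarith
  have k2 : ‖HJ.slope N X (et a X)‖ * (32 * X ^ (-g) / θ * (X * n)) ≤ X ^ (-g) * n * (768 / θ) :=
    (mul_le_mul_of_nonneg_right hs (by positivity)).trans (le_of_eq (by field_simp; ring))
  have e : X ^ (-(2 * g)) = X ^ (-g) * X ^ (-g) := by rw [← Real.rpow_add x0]; congr 1; ring
  refine (mul_le_mul_of_nonneg_left (add_le_add k1 k2) (by positivity)).trans ?_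
  have k3 : 2 * Real.pi * 781 ≤ 5000 := by linarith [Real.pi_lt_d2]
  rw [e]
  calc _ = 2 * Real.pi * 781 * (θ⁻¹ * Real.exp (-X ^ 2 / 4) * (X ^ (-g) * X ^ (-g)) * n) := by ring
    _ ≤ 5000 * (θ⁻¹ * Real.exp (-X ^ 2 / 4) * (X ^ (-g) * X ^ (-g)) * n) := by gcongr
    _ = _ := by ring

/-- **`Glued.form`** from the exact first variation: `A` = total action, `T j` = torque term of the end
`j`, controlled by the variation of the rotation parameters `β` -/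
theorem form_of {F : Type*} [NormedAddCommGroup F] [NormedSpace ℂ F] {U : Par ℓ → Jt ℓ} {N : ℕ}
    {b : κ → ℂ × (ι ⊕ κ → ℂ) → Wi (omP 2)} {R K K1 g g' ε ε1 C r r' X0 θ X CT Mβ : ℝ}
    {w : ι ⊕ κ → ℂ} {A : ℂ × (ι ⊕ κ → ℂ) → ℂ} {β : ℂ × (ι ⊕ κ → ℂ) → F} {B ξ : ℂ} {v : ι ⊕ κ → ℂ}
    {T : κ → ℂ} (h : ∀ j, En U N (b j) R (K - 1 / 4) K1 g g' ε ε1 C r' X0 θ)
    (hw : Rm r r' K X0 θ X w) (hA : DifferentiableAt ℂ A (X, w))
    (hβ : DifferentiableOn ℂ β (Om r' (K - 1 / 4) X0 θ))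
    (hM : ∀ q ∈ Om r' (K - 1 / 4) X0 θ, ‖β q‖ ≤ Mβ) (hCT : 0 ≤ CT)
    (hT : ∀ j, ‖T j‖ ≤ CT * Real.exp (-X ^ 2 / 4) * X ^ (-(2 * g)) * ‖fderiv ℂ β (X, w) (ξ, v)‖)
    (e : fderiv ℂ A (X, w) (ξ, v) = B + ∑ j, (Far.farI R X (w (Sum.inr j)) (Jq U N j (b j) (X, w)) ξ
      (v (Sum.inr j)) (fderiv ℂ (Jq U N j (b j)) (X, w) (ξ, v)) + T j)) :
    ‖fderiv ℂ (fun q => A q - 2 * Real.pi * ∑ j, Sj N j q) (X, w) (ξ, v) - B +
        2 * Real.pi * ξ * ∑ j, HJ.R N X (et (w (Sum.inr j)) X)‖ ≤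
      Fintype.card κ * ((5000 + 32 * CT * Mβ) / θ) * Real.exp (-X ^ 2 / 4) *
        X ^ (-(2 + (2 * g - 3))) * (‖ξ‖ + X ^ 3 * ‖v‖) := by
  have x1 : 1 ≤ X := by linarith [hw.X4]
  have x0 : 0 < X := by linarith
  have t0 := hw.θ0
  have hS : ∀ j, HasFDerivAt (Sj N j) (fderiv ℂ (Sj N j) ((X : ℂ), w)) ((X : ℂ), w) := fun j =>
    (fd_Sj ((h j).hj j hw.self)).1.hasFDerivAt
  have h1 := (hA.hasFDerivAt.fun_sub ((HasFDerivAt.fun_sum (u := Finset.univ) fun j _ =>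
    hS j).const_mul (2 * Real.pi : ℂ))).fderiv
  rw [h1]
  simp only [sub_apply, smul_apply, sum_apply, smul_eq_mul, e]
  set n := ‖ξ‖ + X ^ 3 * ‖v‖ with hn
  have n0 : 0 ≤ n := by positivity
  have e1 : ∀ (s1 s2 s3 : ℂ), B + s1 - s2 - B + s3 = s1 - s2 + s3 := fun _ _ _ => by ring
  rw [e1, Finset.mul_sum, Finset.mul_sum, ← Finset.sum_sub_distrib, ← Finset.sum_add_distrib]
  refine (norm_sum_le _ _).trans ((Finset.sum_le_card_nsmul _ _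
    ((5000 + 32 * CT * Mβ) / θ * Real.exp (-X ^ 2 / 4) * X ^ (-(2 + (2 * g - 3))) * n)
    fun j _ => ?_).trans (le_of_eq (by rw [nsmul_eq_mul, Finset.card_univ]; ring)))
  have k1 := far_err (h j) hw j ξ v
  have k2 := (hT j).trans (mul_le_mul_of_nonneg_left (hw.fd hβ (fun q hq _ => hM q hq) ξ v)
    (by positivity))
  have e2 : ∀ (f t s r : ℂ), f + t - s + r = (f - s + r) + t := fun _ _ _ _ => by ring
  have e3 : X ^ (-(2 + (2 * g - 3))) = X ^ (-(2 * g)) * X := by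
    rw [← Real.rpow_add_one x0.ne']; congr 1; ring
  rw [e2, e3]
  refine (norm_add_le _ _).trans ((add_le_add (k1.trans (le_mul_of_one_le_right (by positivity) x1))
    k2).trans (le_of_eq (by ring)))

end Crest.Agent.N250.Gi

end
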