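import Crest.Agent.N250.Gi.Tq
import Crest.Agent.N250.Gi.Cau
import Crest.Agent.N250.Act.Rot3

/-! # Row 250 (helper65): the axial torque and the full torque bound -/

set_option autoImplicit false

open Set Filter Topology Metric Complex

noncomputable section

namespace Crest.Agent.N250.Far

open B1

variable {ℓ : Ell}

/-- the axial torque through the far circle -/
theorem ax_one {R K g g' X e : ℝ} {a h : ℂ} {c : CI} {Dt : Dat ℓ} {J : Jt ℓ} (hg : Ex g g')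
    (hK : 0 ≤ K) (hX : 2 ≤ X) (hA : Adm K X a) (he : e ≤ 1 / 64) (hj : IsJet c J) (hbc : BC Dt J)
    (hH : Dt.2.1 = Wi.single _ 0 h) (hB : InB R K g g' X a e J)
    (hP : ‖a * X + h‖ ^ 2 ≤ ‖et a X‖ / 4) :
    ‖Act.ax 1 (ex (gam R X)) (Act.vf R X a J 0) (Act.vf R X a J 1) (Act.vf R X a J 3)‖ ≤
      2 * Real.pi * Real.exp (-X ^ 2 / 4) * (X ^ (-g)) ^ 2 := by
  have hW := Gi.W_nonneg g g' a (x := X) (by linarith)
  have h0 : Wi.co (J 3) 0 i1 = 0 := by rw [hj.t0]; simp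
  have hD : ∀ θ, ‖val (J 3) i1 θ‖ ≤ X ^ (-g) := fun θ => by
    have h1 := val_le hB.b3 h0 one_pos (by rw [xr_one]; exact hW) θ
    rw [xr_one] at h1
    have h2 := Gi.W_le hg hK hX hA
    have h3 := mul_le_mul_of_nonneg_right he hW
    have h4 := Real.rpow_nonneg (x := X) (by linarith) (-g)
    linarith
  have key := far_form (R := R) (X' := 0) (a' := 0) (J' := fun _ => J 3) hg hK hX hA he hj hbc hH hB
    hP h0 hD
  have e1 : farI R X a J 0 0 (fun _ => J 3) = Act.ax 1 (ex (gam R X)) (Act.vf R X a J 0)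
      (Act.vf R X a J 1) (Act.vf R X a J 3) := by
    have e : projIcc (0 : ℝ) 1 zero_le_one 1 = i1 := projIcc_right _
    simp only [farI, Act.ax, Act.OI, Act.vf, e, ex_1, gam_one, Mom_eq]
    congr 1; funext θ
    simp [vj]
  have hP1 : ‖a * X + h‖ ≤ 1 := by
    have := (adm_V hK hX hA).2.1
    nlinarith [norm_nonneg (a * X + h)]
  rw [e1] at key
  simp only [mul_zero, zero_mul, zero_div, add_zero, sub_zero, norm_zero, zero_add] at key
  refine key.trans ?_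
  have h4 := Real.rpow_nonneg (x := X) (by linarith) (-g)
  rw [sq (X ^ (-g)), ← mul_assoc _ (X ^ (-g)) (X ^ (-g))]
  exact mul_le_mul_of_nonneg_left (mul_le_of_le_one_left h4 hP1) (by positivity)

/-- **the torque of a working end** for any infinitesimal rotation, through any circle -/
theorem tq_all {N : ℕ} {R K g g' X e A : ℝ} {a a₁ a₂ a₃ : ℂ} {Dt : Dat ℓ} {J : Jt ℓ}
    (hN : HJ.N0 ≤ N) (hg : Ex g g') (hK : 0 ≤ K) (hX : 2 ≤ X) (hA : Adm K X a)
    (hA' : HJ.Adm N X (et a X)) (he : e ≤ 1 / 64) (hs : Sol R (X, a, Dt) J)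
    (hH : Dt.2.1 = Wi.single _ 0 (HJ.slope N X (et a X) - a * X)) (hp : Dt.2.2.1 = 0)
    (hm : Dt.2.2.2 = 0) (hB : InB R K g g' X a e J) (hr : RegJ R X a J)
    (h2 : ∀ s θ, 0 < (vj R X a J s θ 0).re) (h₁ : ‖a₁‖ ≤ A) (h₂ : ‖a₂‖ ≤ A) (h₃ : ‖a₃‖ ≤ A)
    {s : ℝ} (h : s ∈ Icc (0 : ℝ) 1) :
    ‖Act.tq s R X a J a₁ a₂ a₃‖ ≤
      3 * (A * (2 * Real.pi * Real.exp (-X ^ 2 / 4) * (X ^ (-g)) ^ 2 * 176)) := by
  have eP : a * X + (HJ.slope N X (et a X) - a * X) = HJ.slope N X (et a X) := by ring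
  refine Act.tq_le hr (fun s θ => Or.inl ?_)
    (tq_HJ hN hg hK hX hA hA' he hs hH hp hm hB hr h2 Act.ang_cos m1_cos m1_sin h)
    (tq_HJ hN hg hK hX hA hA' he hs hH hp hm hB hr h2 Act.ang_sin m1_sin m1_cos.neg h) ?_ h₁ h₂ h₃
  · have := h2 s θ
    simp only [mul_re, re_ofNat, im_ofNat]; linarith
  · refine (congrArg norm (Act.ax_sol (z := (X, a, Dt)) hs hr h)).trans_le ((ax_one hg hK hX hA he
      hs.jet hs.bc hH hB (by rw [eP]; exact (slope_sq hA' hN (by linarith)).2)).trans ?_)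
    exact le_mul_of_one_le_right (by positivity) (by norm_num)

end Crest.Agent.N250.Far
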