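import Crest.Agent.N250.Gi.Main
import Crest.Agent.N250.R0.Stm

/-!
# Row 250 (helper62): `GLX` from the block `B2`
-/

namespace Crest.Agent.N250.Gi.T

theorem glx_of (h : B2.GL2Stmt) : R0.GLX := conclX_of h giS

end Crest.Agent.N250.Gi.T
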