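import Crest.Agent.N250.Gi.Glx
import Crest.Agent.N250.B2.Nc2

/-!
# Row 250 (helper62): `GLX` holds
-/

namespace Crest.Agent.N250.Gi.T

theorem glx_holds : R0.GLX := glx_of B2.gl2Stmt

end Crest.Agent.N250.Gi.T
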