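import Crest.Agent.N250.Gi.Defs
import Crest.Agent.N250.HJ.Main

/-!
# Row 250 (helper62): the position of the tip, pure algebra
-/

set_option autoImplicit false
open Set Filter Topology

noncomputable section

namespace Crest.Agent.N250.Gi.T

open B1

/-- `η = r² X²` at the cut -/
def eta (X : ℝ) (α : ℂ) : ℂ := 2 * et α X * (X : ℂ) ^ 2

section adm

variable {K X : ℝ} {α : ℂ}

theorem adm_norm (h : Adm K X α) (hK : 0 ≤ K) : ‖α * X ^ 2 / 2‖ ≤ 5 / 4 := by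
  have h1 := norm_add_le (α * X ^ 2 / 2 - 1 / 8) (1 / 8)
  rw [sub_add_cancel] at h1
  have h2 : ‖(1 / 8 : ℂ)‖ = 1 / 8 := by simp
  have h3 : 0 ≤ 2 * K / X ^ 2 := by positivity
  unfold Adm at h
  linarith

theorem et_eq (hX : X ≠ 0) (α : ℂ) :
    et α X = 1 + α * X ^ 2 / 2 * ((1 - 2 / X ^ 2 : ℝ) : ℂ) := by
  have : (X : ℂ) ≠ 0 := by exact_mod_cast hX
  unfold et
  push_cast
  field_simp

theorem adm_re (h : Adm K X α) (hX : 2 ≤ X) (hK : 2 * K ≤ X ^ 2) : 2 * K / X ^ 2 ≤ (et α X).re := by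
  have x0 : 0 < X ^ 2 := by positivity
  have h1 := Complex.abs_re_le_norm (α * X ^ 2 / 2 - 1 / 8)
  have h2 : (α * X ^ 2 / 2 - 1 / 8 : ℂ).re = (α * X ^ 2 / 2 : ℂ).re - 1 / 8 := by
    rw [Complex.sub_re]; norm_num
  have h3 : 2 / X ^ 2 ≤ 1 / 2 := by rw [div_le_iff₀ x0]; nlinarith
  have h4 : 2 * K / X ^ 2 ≤ 1 := (div_le_one x0).2 hK
  have h5 : 0 < 2 / X ^ 2 := by positivity
  rw [et_eq (by linarith), Complex.add_re, Complex.re_mul_ofReal, Complex.one_re]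
  unfold Adm at h
  rw [h2] at h1
  nlinarith [neg_abs_le ((α * X ^ 2 / 2 : ℂ).re - 1 / 8)]

theorem adm_le (h : Adm K X α) (hX : 2 ≤ X) (hK : 0 ≤ K) : ‖et α X‖ ≤ 9 / 4 := by
  have x0 : 0 < X ^ 2 := by positivity
  have h3 : 2 / X ^ 2 ≤ 1 / 2 := by rw [div_le_iff₀ x0]; nlinarith
  have h5 : 0 < 2 / X ^ 2 := by positivity
  rw [et_eq (by linarith)]
  refine (norm_add_le _ _).trans ?_
  rw [norm_mul, Complex.norm_real, Real.norm_eq_abs, abs_of_nonneg (by linarith), norm_one]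
  nlinarith [adm_norm h hK, norm_nonneg (α * X ^ 2 / 2)]

theorem norm_log_le (z : ℂ) : ‖Complex.log z‖ ≤ |Real.log ‖z‖| + Real.pi := by
  refine (Complex.norm_le_abs_re_add_abs_im _).trans ?_
  rw [Complex.log_re, Complex.log_im]
  linarith [Complex.abs_arg_le_pi z]

theorem adm_lam (h : Adm K X α) (hX : 2 ≤ X) (hK : 2 * K ≤ X ^ 2) (hK1 : 1 ≤ K) :
    ‖Lam X α‖ ≤ 2 * Real.log (X ^ 2) + Real.pi := by
  have x0 : 0 < X ^ 2 := by positivity
  have l0 : 0 ≤ Real.log (X ^ 2) := Real.log_nonneg (by nlinarith)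
  have h1 : (X ^ 2)⁻¹ ≤ ‖et α X‖ := by
    refine le_trans ?_ ((adm_re h hX hK).trans (Complex.re_le_norm _))
    rw [inv_eq_one_div]
    exact div_le_div_of_nonneg_right (by linarith) x0.le
  have h2 : ‖et α X‖ ≤ X ^ 2 := (adm_le h hX (by linarith)).trans (by nlinarith)
  have h3 : |Real.log ‖et α X‖| ≤ Real.log (X ^ 2) := by
    refine abs_le.2 ⟨?_, Real.log_le_log ((inv_pos.2 x0).trans_le h1) h2⟩
    rw [← Real.log_inv]
    exact Real.log_le_log (inv_pos.2 x0) h1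
  refine (norm_sub_le _ _).trans ?_
  rw [Complex.norm_real, Real.norm_eq_abs, abs_of_nonneg l0]
  linarith [norm_log_le (et α X)]

theorem norm_eta (X : ℝ) (α : ℂ) : ‖eta X α‖ = 2 * ‖et α X‖ * X ^ 2 := by
  simp [eta]

theorem eta_re (X : ℝ) (α : ℂ) : (eta X α).re = 2 * (et α X).re * X ^ 2 := by
  have : eta X α = et α X * ((2 * X ^ 2 : ℝ) : ℂ) := by unfold eta; push_cast; ring
  rw [this, Complex.re_mul_ofReal]; ring

theorem adm_eta (h : Adm K X α) (hX : 2 ≤ X) (hK : 2 * K ≤ X ^ 2) : 4 * K ≤ (eta X α).re := by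
  have x0 : 0 < X ^ 2 := by positivity
  have := adm_re h hX hK
  rw [div_le_iff₀ x0] at this
  rw [eta_re]; linarith

theorem log_eta (hX : 0 < X) (hV : et α X ≠ 0) :
    Complex.log (eta X α) = Real.log 2 + 2 * Real.log (X ^ 2) - Lam X α := by
  have : eta X α = ((2 * X ^ 2 : ℝ) : ℂ) * et α X := by unfold eta; push_cast; ring
  rw [this, Complex.log_ofReal_mul (by positivity) hV, Real.log_mul two_ne_zero (by positivity), Lam]
  push_cast; ring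

end adm

section tip

variable {X θ Q c : ℝ} {α a u : ℂ}

theorem sub_le (hX : 0 < X) (hz : ‖α * X ^ 2 / 2‖ ≤ 5 / 4) (hL : ‖Lam X α‖ ≤ Q) (hθ : θ ≤ Q)
    (he : ‖hat X α - a‖ ≤ θ / X ^ 4) : ‖α - a‖ * X ^ 4 ≤ 8 * Q := by
  have h1 : α - a = hat X α - a - α ^ 2 * Lam X α := by unfold hat; ring
  have h2 : ‖α‖ * X ^ 2 ≤ 5 / 2 := by
    simp only [norm_div, norm_mul, norm_pow, Complex.norm_real, Real.norm_eq_abs, sq_abs,
      Complex.norm_ofNat] at hz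
    linarith
  have h3 := norm_sub_le (hat X α - a) (α ^ 2 * Lam X α)
  rw [← h1, norm_mul, norm_pow] at h3
  rw [le_div_iff₀ (by positivity)] at he
  have h4 : (‖α‖ * X ^ 2) ^ 2 ≤ (5 / 2) ^ 2 := pow_le_pow_left₀ (by positivity) h2 2
  have h5 := mul_le_mul h4 hL (norm_nonneg _) (by positivity)
  have h6 := mul_le_mul_of_nonneg_right h3 (by positivity : 0 ≤ X ^ 4)
  nlinarith [norm_nonneg (Lam X α)]

/-- small parameters are far from the tip -/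
theorem tip_small (hX : 2 ≤ X) (hz : ‖α * X ^ 2 / 2‖ ≤ 5 / 4) (hL : ‖Lam X α‖ ≤ Q) (hθ : θ ≤ Q)
    (he : ‖hat X α - a‖ ≤ θ / X ^ 4) (hQ : 16 * Q ≤ X ^ 2) (ha : ‖a‖ * X ^ 2 ≤ 1) :
    X ^ 2 / 2 ≤ ‖eta X α‖ := by
  have x0 : 0 < X ^ 2 := by positivity
  have h1 := sub_le (by linarith) hz hL hθ he
  have h2 : ‖α - a‖ * X ^ 2 ≤ 1 / 2 := by
    refine le_of_mul_le_mul_right ?_ x0
    nlinarith
  have h3 : ‖α‖ ≤ ‖α - a‖ + ‖a‖ := by simpa using norm_add_le (α - a) a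
  have h4 : ‖α * ((X : ℂ) ^ 2 - 2) / 2‖ ≤ 3 / 4 := by
    have : ((X : ℂ) ^ 2 - 2) = ((X ^ 2 - 2 : ℝ) : ℂ) := by push_cast; ring
    rw [this, norm_div, norm_mul, Complex.norm_real, Real.norm_eq_abs,
      abs_of_nonneg (by nlinarith), Complex.norm_ofNat]
    nlinarith [norm_nonneg α]
  have h5 := norm_sub_le (et α X) (α * ((X : ℂ) ^ 2 - 2) / 2)
  rw [show et α X - α * ((X : ℂ) ^ 2 - 2) / 2 = 1 by unfold et; ring, norm_one] at h5
  rw [norm_eta]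
  nlinarith

theorem eta_eq (ha : a * (((X ^ 2 + 4 * Real.log (X ^ 2) + c : ℝ) : ℂ) + u) = -2) :
    eta X α = -(a * X ^ 2) * (u + ((4 * Real.log (X ^ 2) + c + 2 : ℝ) : ℂ)) +
      (α - a) * X ^ 2 * (X ^ 2 - 2) := by
  unfold eta et
  push_cast at ha ⊢
  linear_combination (X : ℂ) ^ 2 * ha

/-- far from the tip -/
theorem tip_far (hX : 2 ≤ X) (hz : ‖α * X ^ 2 / 2‖ ≤ 5 / 4) (hL : ‖Lam X α‖ ≤ Q) (hθ : θ ≤ Q)
    (he : ‖hat X α - a‖ ≤ θ / X ^ 4) (hD : |4 * Real.log (X ^ 2) + c + 2| ≤ Q)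
    (ha : a * (((X ^ 2 + 4 * Real.log (X ^ 2) + c : ℝ) : ℂ) + u) = -2)
    (ha' : 1 / 2 ≤ ‖a‖ * X ^ 2) (hQ : 36 * Q ≤ ‖u‖) : ‖u‖ ≤ 4 * ‖eta X α‖ := by
  have h1 := sub_le (by linarith) hz hL hθ he
  have h2 : ‖(α - a) * X ^ 2 * (X ^ 2 - 2)‖ ≤ 8 * Q := by
    have : ((X : ℂ) ^ 2 - 2) = ((X ^ 2 - 2 : ℝ) : ℂ) := by push_cast; ring
    rw [this, norm_mul, norm_mul, norm_pow, Complex.norm_real, Complex.norm_real,
      Real.norm_eq_abs, Real.norm_eq_abs, sq_abs, abs_of_nonneg (by nlinarith)]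
    nlinarith [mul_nonneg (norm_nonneg (α - a)) (sq_nonneg X)]
  have h3 := norm_sub_le (eta X α) ((α - a) * X ^ 2 * (X ^ 2 - 2))
  rw [eta_eq ha, add_sub_cancel_right, ← eta_eq ha, norm_mul, norm_neg, norm_mul, norm_pow,
    Complex.norm_real, Real.norm_eq_abs, sq_abs] at h3
  have h4 := norm_sub_le (u + ((4 * Real.log (X ^ 2) + c + 2 : ℝ) : ℂ))
    ((4 * Real.log (X ^ 2) + c + 2 : ℝ) : ℂ)
  rw [add_sub_cancel_right, Complex.norm_real, Real.norm_eq_abs] at h4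
  have h5 := mul_le_mul_of_nonneg_right ha'
    (norm_nonneg (u + ((4 * Real.log (X ^ 2) + c + 2 : ℝ) : ℂ)))
  have := (abs_nonneg _).trans hD
  linarith

set_option maxHeartbeats 800000 in
/-- near the tip -/
theorem tip_near (hX : 4 ≤ X) (hz : ‖α * X ^ 2 / 2‖ ≤ 5 / 4) (hV : et α X ≠ 0) (hL : ‖Lam X α‖ ≤ Q)
    (hθ : θ ≤ Q) (he : ‖hat X α - a‖ ≤ θ / X ^ 4) (hD : |4 * Real.log (X ^ 2) + c + 2| + 2 ≤ Q)
    (ha : a * (((X ^ 2 + 4 * Real.log (X ^ 2) + c : ℝ) : ℂ) + u) = -2)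
    (hP : ‖u‖ + Q ≤ X ^ 2 / 2) :
    ‖eta X α‖ ≤ 13 * (‖u‖ + Q) ∧
    ‖eta X α - 4 * Complex.log (eta X α) - ((2 * c + 4 - 4 * Real.log 2 : ℝ) : ℂ) - 2 * u‖ ≤
      θ + 76 * (‖u‖ + Q) ^ 2 / X ^ 2 := by
  have x0 : 0 < X ^ 2 := by positivity
  have xc : (X : ℂ) ≠ 0 := by exact_mod_cast (by linarith : X ≠ 0)
  set D : ℝ := 4 * Real.log (X ^ 2) + c + 2 with hDd
  set P := ‖u‖ + Q with hPd
  set i : ℝ := (X ^ 2)⁻¹ with hi
  have i0 : 0 < i := inv_pos.2 x0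
  have i1 : i * X ^ 2 = 1 := inv_mul_cancel₀ x0.ne'
  have i2 : i ≤ 1 / 16 := by rw [hi, inv_eq_one_div, div_le_div_iff₀ x0 (by norm_num)]; nlinarith
  have ic : (i : ℂ) * X ^ 2 = 1 := by exact_mod_cast i1
  have u0 := norm_nonneg u
  have D0 := abs_nonneg D
  have P1 : 1 ≤ P := by linarith
  obtain ⟨s, hs⟩ : ∃ s : ℂ, s = -(a * X ^ 2 / 2) := ⟨_, rfl⟩
  obtain ⟨s', hs'⟩ : ∃ s' : ℂ, s' = -(α * X ^ 2 / 2) := ⟨_, rfl⟩
  obtain ⟨e, hee⟩ : ∃ e : ℂ, e = (hat X α - a) * X ^ 4 := ⟨_, rfl⟩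
  have ne : ‖e‖ ≤ θ := by
    rw [hee, norm_mul, norm_pow, Complex.norm_real, Real.norm_eq_abs, abs_of_pos (by linarith)]
    exact (le_div_iff₀ (by positivity)).1 he
  have ns' : ‖s'‖ ≤ 5 / 4 := by rw [hs', norm_neg]; exact hz
  have n1 : ‖(1 - 2 * i : ℂ)‖ ≤ 1 := by
    rw [show (1 - 2 * i : ℂ) = ((1 - 2 * i : ℝ) : ℂ) by push_cast; ring, Complex.norm_real,
      Real.norm_eq_abs, abs_of_nonneg (by linarith)]
    linarith
  have nD : ‖u + D‖ ≤ P - 2 := (norm_add_le _ _).trans (by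
    rw [Complex.norm_real, Real.norm_eq_abs]; linarith)
  have nD' : ‖u + D - 2‖ ≤ P := (norm_sub_le _ _).trans (by rw [Complex.norm_ofNat]; linarith)
  have ha2 : a * (X ^ 2 + (u + D - 2)) = -2 := by
    rw [← ha, hDd]; push_cast; ring
  have es : s - 1 = -(s * i * (u + D - 2)) := by
    rw [hs]; linear_combination (-(1 : ℂ) / 2) * ha2 + (-(a / 2) * (u + D - 2)) * ic
  have ns1 : ‖s - 1‖ ≤ ‖s‖ * (i * P) := by
    rw [es, norm_neg, norm_mul, norm_mul, Complex.norm_real, Real.norm_eq_abs, abs_of_pos i0,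
      mul_assoc]
    gcongr
  have iP : i * P ≤ 1 / 2 := by nlinarith
  have ns : ‖s‖ ≤ 2 := by
    have := norm_add_le (s - 1) 1
    rw [sub_add_cancel, norm_one] at this
    nlinarith [norm_nonneg s]
  have ns2 : ‖s - 1‖ ≤ 2 * (i * P) := ns1.trans (by gcongr)
  have key : eta X α = 2 * s * (u + D) - 4 * (s' ^ 2 * (1 - 2 * i)) * Lam X α + e * (1 - 2 * i) := by
    rw [eta_eq ha, hs, hs', hee, hat]
    linear_combination (2 * (α - a) * X ^ 2) * ic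
  have nt : ‖s' ^ 2 * (1 - 2 * i)‖ ≤ 2 := by
    rw [norm_mul, norm_pow]
    nlinarith [norm_nonneg s', norm_nonneg (1 - 2 * i : ℂ)]
  have tri : ∀ x y z : ℂ, ‖x - y + z‖ ≤ ‖x‖ + ‖y‖ + ‖z‖ := fun x y z =>
    (norm_add_le _ _).trans (by linarith [norm_sub_le x y])
  have ne' : ‖e * (1 - 2 * i)‖ ≤ θ := by
    rw [norm_mul]; nlinarith [norm_nonneg e, norm_nonneg (1 - 2 * i : ℂ)]
  have L0 := norm_nonneg (Lam X α)
  have nη : ‖eta X α‖ ≤ 13 * P := by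
    rw [key]
    refine (tri _ _ _).trans ?_
    rw [norm_mul, norm_mul, norm_mul (4 * _), norm_mul 4, Complex.norm_ofNat, Complex.norm_ofNat]
    have a1 := mul_le_mul ns nD (norm_nonneg _) zero_le_two
    have a2 := mul_le_mul nt hL L0 zero_le_two
    nlinarith
  refine ⟨nη, ?_⟩
  have eV : et α X = eta X α * (i / 2 : ℝ) := by
    unfold eta; push_cast; linear_combination (-et α X) * ic
  have nV : ‖et α X‖ ≤ 13 / 2 * (i * P) := by
    rw [eV, norm_mul, Complex.norm_real, Real.norm_eq_abs, abs_of_pos (by positivity)]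
    nlinarith
  have e1 : s' * (1 - 2 * i) = 1 - et α X := by
    rw [hs']; unfold et; linear_combination α * ic
  have e2 : s' ^ 2 * (1 - 2 * i) - 1 = 2 * i * s' - et α X + -(s' * et α X) := by
    linear_combination (s' + 1) * e1
  have nt1 : ‖s' ^ 2 * (1 - 2 * i) - 1‖ ≤ 18 * (i * P) := by
    rw [e2]
    refine (tri _ _ _).trans ?_
    rw [norm_neg, norm_mul, norm_mul, norm_mul, Complex.norm_ofNat, Complex.norm_real,
      Real.norm_eq_abs, abs_of_pos i0]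
    have a1 := mul_le_mul ns' nV (norm_nonneg _) (by norm_num)
    nlinarith
  have e3 : eta X α - 4 * Complex.log (eta X α) - ((2 * c + 4 - 4 * Real.log 2 : ℝ) : ℂ) - 2 * u =
      2 * (s - 1) * (u + D) - 4 * (s' ^ 2 * (1 - 2 * i) - 1) * Lam X α + e * (1 - 2 * i) := by
    rw [log_eta (by linarith) hV]
    have : (D : ℂ) = 4 * Real.log (X ^ 2) + c + 2 := by rw [hDd]; push_cast; ring
    push_cast at this ⊢
    linear_combination key + 2 * this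
  rw [e3]
  refine (tri _ _ _).trans ?_
  rw [norm_mul, norm_mul, norm_mul (4 * _), norm_mul 4, Complex.norm_ofNat, Complex.norm_ofNat,
    div_eq_mul_inv, ← hi]
  have a1 := mul_le_mul ns2 (nD.trans (by linarith : P - 2 ≤ P)) (norm_nonneg _) (by positivity)
  have a2 := mul_le_mul nt1 (hL.trans (by linarith : Q ≤ P)) L0 (by positivity)
  nlinarith

end tip

end Crest.Agent.N250.Gi.T

end
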