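import Crest.Agent.N250.Gi.Defs

/-!
# Row 250 (helper62): the cut as a function of the level
-/

set_option autoImplicit false
open Set Filter Topology

noncomputable section

namespace Crest.Agent.N250.Gi.T

open B2

variable {N : ℕ}

theorem TL_der (N : ℕ) {X : ℝ} (hX : 0 < X) : HasStrictDerivAt (TL N) (2 * X + 8 / X) X := by
  have h1 : HasStrictDerivAt (fun x : ℝ => x ^ 2) (2 * X) X := by
    simpa using hasStrictDerivAt_pow 2 X
  have h2 := ((h1.add ((h1.log (by positivity)).const_mul 4)).add_const (c0 N))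
  have e : 2 * X + 8 / X = 2 * X + 4 * (2 * X / X ^ 2) := by field_simp; ring
  rw [e]
  exact h2

theorem TL_mono (N : ℕ) : StrictMonoOn (TL N) (Ioi 0) := fun x hx y _ hxy => by
  have hx : 0 < x := hx
  have h1 : x ^ 2 < y ^ 2 := by nlinarith
  have := Real.log_lt_log (by positivity) h1
  unfold TL; linarith

theorem XL_TL (N : ℕ) {X : ℝ} (hX : 0 < X) : XL N (TL N X) = X :=
  (TL_mono N).injOn.leftInvOn_invFunOn hX

theorem TL_ge (N : ℕ) {X : ℝ} (hX : 1 ≤ X) : X + c0 N ≤ TL N X := by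
  have := Real.log_nonneg (show 1 ≤ X ^ 2 by nlinarith)
  unfold TL; nlinarith

theorem TL_top (N : ℕ) : Tendsto (TL N) atTop atTop :=
  tendsto_atTop_mono' _ ((eventually_ge_atTop 1).mono fun _ h => TL_ge N h)
    (tendsto_atTop_add_const_right _ _ tendsto_id)

/-- every large level comes from a large cut -/
theorem exists_TL (N : ℕ) {X1 B : ℝ} (h1 : 0 < X1) (hB : TL N X1 < B) : ∃ X, X1 < X ∧ TL N X = B := by
  obtain ⟨Y, hY1, hY2⟩ := (((TL_top N).eventually_ge_atTop B).and (eventually_ge_atTop X1)).exists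
  have hc : ContinuousOn (TL N) (Icc X1 Y) := fun x hx =>
    (TL_der N (h1.trans_le hx.1)).hasDerivAt.continuousAt.continuousWithinAt
  obtain ⟨X, hX, e⟩ := intermediate_value_Ioc hY2 hc ⟨hB, hY1⟩
  exact ⟨X, hX.1, e⟩

theorem XL_spec (N : ℕ) {X1 B : ℝ} (h1 : 0 < X1) (hB : TL N X1 < B) :
    X1 < XL N B ∧ TL N (XL N B) = B := by
  obtain ⟨X, hX, rfl⟩ := exists_TL N h1 hB
  rw [XL_TL N (h1.trans hX)]
  exact ⟨hX, rfl⟩

theorem XL_der (N : ℕ) {X1 B : ℝ} (h1 : 0 < X1) (hB : TL N X1 < B) :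
    HasDerivAt (XL N) (2 * XL N B + 8 / XL N B)⁻¹ B := by
  obtain ⟨X, hX, rfl⟩ := exists_TL N h1 hB
  have h0 := h1.trans hX
  rw [XL_TL N h0]
  exact ((TL_der N h0).to_local_left_inverse (by positivity)
    ((eventually_gt_nhds h0).mono fun x hx => XL_TL N hx)).hasDerivAt

theorem XL_c1 (N : ℕ) {X1 : ℝ} (h1 : 0 < X1) : ContDiffOn ℝ 1 (XL N) (Ioi (TL N X1)) := by
  have hd : DifferentiableOn ℝ (XL N) (Ioi (TL N X1)) := fun B hB =>
    (XL_der N h1 hB).differentiableAt.differentiableWithinAt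
  rw [show (1 : WithTop ℕ∞) = 0 + 1 from rfl, contDiffOn_succ_iff_deriv_of_isOpen isOpen_Ioi]
  refine ⟨hd, by simp, contDiffOn_zero.2 ?_⟩
  have hp : ∀ B ∈ Ioi (TL N X1), 0 < XL N B := fun B hB => h1.trans (XL_spec N h1 hB).1
  refine ContinuousOn.congr (f := fun B => (2 * XL N B + 8 / XL N B)⁻¹) ?_
    fun B hB => (XL_der N h1 hB).deriv
  refine ((hd.continuousOn.const_mul 2).add
    (continuousOn_const.div hd.continuousOn fun B hB => (hp B hB).ne')).inv₀ fun B hB => ?_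
  have := hp B hB
  exact (by positivity : 0 < 2 * XL N B + 8 / XL N B).ne'

theorem TL_cmp (N : ℕ) : ∀ᶠ X in atTop, X ^ 2 ≤ TL N X ∧ TL N X ≤ 2 * X ^ 2 := by
  have h1 : Tendsto (fun X : ℝ => Real.log (X ^ 2)) atTop atTop :=
    Real.tendsto_log_atTop.comp (tendsto_pow_atTop two_ne_zero)
  filter_upwards [h1.eventually_ge_atTop |c0 N|, eventually_ge_atTop 10] with X a b
  have h2 : Real.log (X ^ 2) ≤ 2 * (X - 1) := by
    rw [Real.log_pow]
    have := Real.log_le_sub_one_of_pos (show 0 < X by linarith)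
    push_cast; linarith
  have := neg_abs_le (c0 N)
  have := le_abs_self (c0 N)
  have := abs_nonneg (c0 N)
  unfold TL
  constructor <;> nlinarith

variable {ι κ : Type} [Fintype ι] [Fintype κ]

theorem isOpen_DX (N : ℕ) (r δ : ℝ) {X1 : ℝ} (h1 : 0 < X1) (h2 : 1 ≤ TL N X1) :
    IsOpen {p : ℝ × (ι ⊕ κ → ℂ) | X1 < p.1 ∧ p.2 ∈ DX N r δ p.1} := by
  refine isOpen_iff_mem_nhds.2 fun p hp => ?_
  have h0 := h1.trans hp.1
  have a1 : ∀ᶠ x : ℝ × (ι ⊕ κ → ℂ) in 𝓝 p, X1 < x.1 :=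
    continuousAt_const.eventually_lt continuousAt_fst hp.1
  have a2 : ∀ᶠ x : ℝ × (ι ⊕ κ → ℂ) in 𝓝 p, ∀ i, ‖x.2 (Sum.inl i)‖ < r :=
    eventually_all.2 fun i => ContinuousAt.eventually_lt (by fun_prop) continuousAt_const (hp.2.1 i)
  have hT : ContinuousAt (fun x : ℝ × (ι ⊕ κ → ℂ) => TL N x.1 - 0 - 1) p :=
    (((TL_der N h0).hasDerivAt.continuousAt.comp continuousAt_fst).sub continuousAt_const).sub
      continuousAt_const
  have hne : TL N p.1 - 0 - 1 ≠ 0 := by linarith [TL_mono N h1 h0 hp.1]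
  have a3 : ∀ᶠ x : ℝ × (ι ⊕ κ → ℂ) in 𝓝 p, ∀ j, x.2 (Sum.inr j) ∈ DB δ (TL N x.1 - 0 - 1) := by
    refine eventually_all.2 fun j => ?_
    have a : ContinuousAt (fun x : ℝ × (ι ⊕ κ → ℂ) => 2 * δ / (TL N x.1 - 0 - 1)) p :=
      continuousAt_const.div hT hne
    have b : ContinuousAt (fun x : ℝ × (ι ⊕ κ → ℂ) => 2 * (1 + δ) / (TL N x.1 - 0 - 1)) p :=
      continuousAt_const.div hT hne
    have c : ContinuousAt (fun x : ℝ × (ι ⊕ κ → ℂ) =>
        dist (x.2 (Sum.inr j)) ((2 * δ / (TL N x.1 - 0 - 1) : ℝ) : ℂ)) p :=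
      Tendsto.dist (by fun_prop : ContinuousAt (fun x : ℝ × (ι ⊕ κ → ℂ) => x.2 (Sum.inr j)) p)
        (Complex.continuous_ofReal.continuousAt.comp a)
    exact c.eventually_lt b (hp.2.2 j)
  filter_upwards [a1, a2, a3] with x a b c using ⟨a, b, c⟩

/-- the conclusion of the block `B2`, read at the cut -/
theorem conclX_of_concl2 {f : ℝ → (ι ⊕ κ → ℂ) → ℂ} (h : Concl2 fun B => f (XL N B)) :
    ConclX N f := by
  obtain ⟨n, μ, C, r', B1, f0, h1, h2, h3, h4, h5⟩ := h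
  obtain ⟨X1, hX1⟩ := eventually_atTop.1
    (((TL_top N).eventually_gt_atTop B1).and (eventually_gt_atTop 0))
  refine ⟨n, μ, C, r', X1, f0, h1, h2, h3, h4, fun X hX => ?_⟩
  have := h5 _ (hX1 X hX.le).1
  simp only [XL_TL N (hX1 X hX.le).2] at this
  exact this

theorem conclX_of (hL : GL2Stmt) (hG : GiS) (C0 : ℝ) (p : ℕ) : ∃ N0 : ℕ, ∀ N, N0 ≤ N →
    ∀ (ι κ : Type) [Fintype ι] [Fintype κ] (f : ℝ → (ι ⊕ κ → ℂ) → ℂ)
      (al : ℝ → (ι ⊕ κ → ℂ) → κ → ℂ) (r δ X0 k C : ℝ), Fintype.card κ = p →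
      Fx N C0 f al r δ X0 k C → ConclX N f := by
  obtain ⟨N0, h⟩ := hG C0 p
  refine ⟨N0, fun N hN ι κ _ _ f al r δ X0 k C hp hf => ?_⟩
  obtain ⟨m, φ, M, ω, B0, C', g, hR⟩ := h N hN ι κ f al r δ X0 k C hp hf
  exact conclX_of_concl2 (hL _ _ _ _ _ _ _ _ _ _ _ _ _ hR)

end Crest.Agent.N250.Gi.T

end
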