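import Crest.Agent.N250.Gi.Mm
import Crest.Agent.N250.Gi.Tip
import Crest.Agent.N250.Gi.XL

/-!
# Row 250 (helper62): `Fx → Rx`
-/

set_option autoImplicit false
set_option linter.unusedSectionVars false
open Set Filter Topology

noncomputable section

namespace Crest.Agent.N250.Gi.T

open B1 B2

variable {N : ℕ}

theorem hjAdm {X : ℝ} {α : ℂ} (h : B1.Adm (KK N) X α) (hX : 2 ≤ X) (hK : 2 * KK N ≤ X ^ 2) :
    HJ.Adm N X (et α X) := by
  have k0 : 0 < KK N := by unfold KK; positivity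
  have h1 := adm_eta h hX hK
  refine ⟨by exact_mod_cast (by linarith : X ≠ 0), lt_of_lt_of_le (by positivity) (adm_re h hX hK),
    (adm_le h hX k0.le).trans (by norm_num), ?_⟩
  rw [HJ.ww, norm_div, norm_one]
  refine one_div_le_one_div_of_le (by positivity) (le_trans ?_ (h1.trans (Complex.re_le_norm _)))
  unfold KK; linarith

theorem cont_G {X V : ℂ} (h : HJ.Adm N X V) (hN : HJ.N0 ≤ N) : ContinuousAt
    (fun p : ℂ × ℂ => p.1 * HJ.rr p.2 * (HJ.nu N p.1 p.2 - HJ.cs N p.1 p.2) / HJ.kap N) (X, V) := by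
  have hX := h.hX
  have h0 := (HJ.differentiableAt_ww hX h.hV0).continuousAt
  have h1 : ContinuousAt (fun p : ℂ × ℂ => HJ.eN N (HJ.ww p.1 p.2)) (X, V) :=
    (HJ.differentiable_eN N _).continuousAt.comp h0
  have h2 : ContinuousAt (fun p : ℂ × ℂ => HJ.cN N (HJ.ww p.1 p.2)) (X, V) :=
    (HJ.differentiable_cN N _).continuousAt.comp h0
  have h5 : ContinuousAt (fun p : ℂ × ℂ => (p.1 ^ 2)⁻¹) (X, V) :=
    ContinuousAt.inv₀ (by fun_prop) (by simp [hX])
  have h7 : ContinuousAt (fun p : ℂ × ℂ => HJ.tau N p.1 p.2) (X, V) := by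
    unfold HJ.tau
    simp only [div_eq_mul_inv]
    fun_prop
  have h8 : ContinuousAt (fun p : ℂ × ℂ => HJ.cs N p.1 p.2) (X, V) := by
    unfold HJ.cs
    refine ContinuousAt.cpow (by fun_prop) continuousAt_const (Or.inl ?_)
    have a1 := h.z_le hN
    have a2 := h.w_small hN
    have a3 := Complex.re_le_norm (4 * HJ.ww X V * HJ.tau N X V ^ 2)
    simp only [Complex.sub_re, Complex.one_re]
    linarith
  have h9 : ContinuousAt (fun p : ℂ × ℂ => HJ.nu N p.1 p.2) (X, V) := by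
    unfold HJ.nu
    simp only [div_eq_mul_inv]
    fun_prop
  have h10 : ContinuousAt (fun p : ℂ × ℂ => HJ.rr p.2) (X, V) :=
    (HJ.hasDerivAt_rr h.hV).continuousAt.comp_of_eq continuousAt_snd rfl
  fun_prop

theorem cont_mm {X : ℝ} {α : ℂ} (h : HJ.Adm N X (et α X)) (hN : HJ.N0 ≤ N) :
    ContinuousAt (fun p : ℝ × ℂ => mm N p.1 p.2) (X, α) := by
  have h1 : Continuous fun p : ℝ × ℂ => et p.2 p.1 := by unfold et; fun_prop
  have h2 : ContinuousAt (fun p : ℝ × ℂ => z0 N p.1 p.2) (X, α) :=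
    (cont_G h hN).comp_of_eq (f := fun p : ℝ × ℂ => ((p.1 : ℂ), et p.2 p.1))
      (Continuous.continuousAt (by fun_prop)) rfl
  have h3 : Continuous fun p : ℝ × ℂ => p.1 ^ 2 / (p.1 ^ 2 + 4) :=
    Continuous.div (by fun_prop) (by fun_prop) fun p => by positivity
  exact ((h1.neg.div_const 2).cexp.continuousAt.mul h2).mul
    (Complex.continuous_ofReal.comp h3).continuousAt

/-- the constant in front of the derivative -/
def om (N : ℕ) : ℝ := -(Real.pi * HJ.kap N * Real.exp (c0 N / 4))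

theorem om_ne (N : ℕ) : om N ≠ 0 := by
  have := HJ.kap_pos N
  have := Real.pi_pos
  exact neg_ne_zero.2 (by positivity)

/-- the ratio of the two weights -/
def rt (N : ℕ) (X : ℝ) : ℝ := (2 * X + 8 / X)⁻¹ / (om N * Real.exp (-TL N X / 4))

theorem rt_eq {X : ℝ} (hX : 0 < X) :
    rt N X = -(X ^ 3 * Real.exp (X ^ 2 / 4) / (2 * Real.pi * HJ.kap N * (X ^ 2 + 4))) := by
  have e : Real.exp (-TL N X / 4) =
      (Real.exp (X ^ 2 / 4) * X ^ 2 * Real.exp (c0 N / 4))⁻¹ := by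
    rw [← Real.exp_log (show 0 < X ^ 2 by positivity), ← Real.exp_add, Real.exp_log (by positivity),
      ← Real.exp_add, ← Real.exp_neg, TL]
    congr 1; ring
  have := HJ.kap_pos N
  have := Real.pi_pos
  rw [rt, e, om]
  field_simp
  ring

theorem mm_eq {X : ℝ} (hX : 0 < X) (α : ℂ) :
    mm N X α = -(rt N X * (2 * Real.pi * HJ.R N X (et α X))) := by
  have e : Complex.exp (-et α X / 2) = HJ.EE X (et α X) * (Real.exp (X ^ 2 / 4) : ℝ) := by
    rw [HJ.EE, Complex.ofReal_exp, ← Complex.exp_add]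
    congr 1; push_cast; ring
  have h1 : (HJ.kap N : ℂ) ≠ 0 := by exact_mod_cast (HJ.kap_pos N).ne'
  have h2 : (Real.pi : ℂ) ≠ 0 := by exact_mod_cast Real.pi_pos.ne'
  have h3 : (X : ℂ) ^ 2 + 4 ≠ 0 := by exact_mod_cast (by positivity : X ^ 2 + 4 ≠ 0)
  rw [rt_eq hX, mm, z0, HJ.R, e]
  generalize Real.exp (X ^ 2 / 4) = t
  push_cast
  field_simp

theorem rt_le {X k : ℝ} (hX : 0 < X) : |rt N X| * (Real.exp (-X ^ 2 / 4) * X ^ (-(2 + k))) ≤
    X ^ (-(1 + k)) / (2 * Real.pi * HJ.kap N) := by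
  have := HJ.kap_pos N
  have := Real.pi_pos
  have e1 : X ^ (-(1 + k)) = X * X ^ (-(2 + k)) := by
    rw [show -(1 + k) = 1 + -(2 + k) by ring, Real.rpow_add hX, Real.rpow_one]
  have t0 := Real.rpow_pos_of_pos hX (-(2 + k))
  rw [rt_eq hX, abs_neg, abs_of_pos (by positivity), e1, neg_div, Real.exp_neg]
  have : X ^ 3 * Real.exp (X ^ 2 / 4) / (2 * Real.pi * HJ.kap N * (X ^ 2 + 4)) *
      ((Real.exp (X ^ 2 / 4))⁻¹ * X ^ (-(2 + k))) =
      X * X ^ (-(2 + k)) / (2 * Real.pi * HJ.kap N) * (X ^ 2 / (X ^ 2 + 4)) := by field_simp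
  rw [this]
  exact mul_le_of_le_one_right (by positivity) ((div_le_one (by positivity)).2 (by linarith))

theorem rp_le {X B g k : ℝ} (hX : 1 ≤ X) (hB : 0 < B) (h : B ≤ 2 * X ^ 2) (g0 : 0 < g)
    (g1 : g ≤ 1 / 2) (gk : 2 * g ≤ k) : X ^ (-(1 + k)) ≤ 2 * B ^ (-(1 / 2 + g)) := by
  have x0 : 0 < X := by linarith
  have h1 := Real.rpow_le_rpow_of_nonpos hB h (show -(1 / 2 + g) ≤ 0 by linarith)
  rw [Real.mul_rpow zero_le_two (by positivity), ← Real.rpow_natCast, ← Real.rpow_mul x0.le] at h1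
  have h2 : (2 : ℝ) ^ (-1 : ℝ) ≤ 2 ^ (-(1 / 2 + g)) :=
    Real.rpow_le_rpow_of_exponent_le one_le_two (by linarith)
  rw [Real.rpow_neg_one] at h2
  have h3 : X ^ (-(1 + k)) ≤ X ^ (((2 : ℕ) : ℝ) * -(1 / 2 + g)) :=
    Real.rpow_le_rpow_of_exponent_le hX (by push_cast; linarith)
  have h4 := mul_le_mul h2 h3 (by positivity) (by positivity)
  linarith

variable {ι κ : Type} [Fintype ι] [Fintype κ] {C0 r δ X0 k C : ℝ}
  {f : ℝ → (ι ⊕ κ → ℂ) → ℂ} {al : ℝ → (ι ⊕ κ → ℂ) → κ → ℂ}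

/-- the remainder, shared between the ends -/
def er (N : ℕ) (f : ℝ → (ι ⊕ κ → ℂ) → ℂ) (al : ℝ → (ι ⊕ κ → ℂ) → κ → ℂ) (X : ℝ) (z : ι ⊕ κ → ℂ) :
    ℂ := (rt N X * deriv (fun s : ℝ => f s z) X - ∑ j, mm N X (al X z j)) / Fintype.card κ

theorem er_le (h : Fx N C0 f al r δ X0 k C) {X : ℝ} (hX : X0 < X) (x0 : 0 < X) {z : ι ⊕ κ → ℂ}
    (hz : z ∈ DX N r δ X) :
    ‖er N f al X z‖ ≤ |C| / (2 * Real.pi * HJ.kap N) * X ^ (-(1 + k)) := by
  have := HJ.kap_pos N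
  have := Real.pi_pos
  have e : rt N X * deriv (fun s : ℝ => f s z) X - ∑ j, mm N X (al X z j) = rt N X *
      (deriv (fun s : ℝ => f s z) X + 2 * Real.pi * ∑ j, HJ.R N X (et (al X z j) X)) := by
    simp only [mm_eq x0, Finset.sum_neg_distrib, ← Finset.mul_sum]
    ring
  rw [er, e, norm_div, norm_mul, Complex.norm_real, Real.norm_eq_abs, Complex.norm_natCast]
  refine div_le_of_le_mul₀ (by positivity) (by positivity) ?_
  refine (mul_le_mul_of_nonneg_left (h.dX X hX z hz) (abs_nonneg _)).trans ?_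
  have h1 := mul_le_mul (le_abs_self C) (rt_le (N := N) (k := k) x0) (by positivity) (abs_nonneg C)
  have h2 := mul_le_mul_of_nonneg_left h1 (Nat.cast_nonneg (Fintype.card κ))
  refine le_of_eq_of_le (by ring) (h2.trans_eq (by ring))

theorem sum_m (h : Fx N C0 f al r δ X0 k C) {X : ℝ} (hX : X0 < X) {z : ι ⊕ κ → ℂ}
    (hz : z ∈ DX N r δ X) : ∑ j, (mm N X (al X z j) + er N f al X z) =
      rt N X * deriv (fun s : ℝ => f s z) X := by
  rcases isEmpty_or_nonempty κ with h0 | h0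
  · have := h.dX X hX z hz
    simp only [Finset.univ_eq_empty, Finset.sum_empty, mul_zero, add_zero, Fintype.card_eq_zero,
      Nat.cast_zero, zero_mul, norm_le_zero_iff] at this
    simp [this]
  · have : (Fintype.card κ : ℂ) ≠ 0 := by exact_mod_cast Fintype.card_ne_zero
    rw [Finset.sum_add_distrib, Finset.sum_const, Finset.card_univ, nsmul_eq_mul, er]
    field_simp
    ring

theorem slice (h : Fx N C0 f al r δ X0 k C) {X1 : ℝ} (h0 : X0 ≤ X1) (h1 : 0 < X1) (h2 : 1 ≤ TL N X1)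
    {X : ℝ} (hX : X1 < X) {z : ι ⊕ κ → ℂ} (hz : z ∈ DX N r δ X) :
    HasDerivAt (fun s : ℝ => f s z)
      (fderiv ℝ (fun p : ℝ × (ι ⊕ κ → ℂ) => f p.1 p.2) (X, z) (1, 0)) X := by
  have a : DifferentiableAt ℝ (fun p : ℝ × (ι ⊕ κ → ℂ) => f p.1 p.2) (X, z) :=
    (h.c1.contDiffAt (mem_of_superset ((isOpen_DX N r δ h1 h2).mem_nhds (x := (X, z)) ⟨hX, hz⟩)
      fun p hp => ⟨h0.trans_lt hp.1, hp.2⟩)).differentiableAt one_ne_zero
  exact a.hasFDerivAt.comp_hasDerivAt X ((hasDerivAt_id X).prodMk (hasDerivAt_const X z))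

theorem cont_m (h : Fx N C0 f al r δ X0 k C) (hN : HJ.N0 ≤ N) {X1 : ℝ} (h0 : X0 ≤ X1) (h1 : 2 ≤ X1)
    (h2 : 1 ≤ TL N X1) (h3 : 2 * KK N ≤ X1 ^ 2) (j : κ) : ContinuousOn
      (fun p : ℝ × (ι ⊕ κ → ℂ) => mm N p.1 (al p.1 p.2 j) + er N f al p.1 p.2)
      {p | X1 < p.1 ∧ p.2 ∈ DX N r δ p.1} := by
  have x1 : 0 < X1 := by linarith
  have hs : {p : ℝ × (ι ⊕ κ → ℂ) | X1 < p.1 ∧ p.2 ∈ DX N r δ p.1} ⊆
      {p | X0 < p.1 ∧ p.2 ∈ DX N r δ p.1} := fun p hp => ⟨h0.trans_lt hp.1, hp.2⟩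
  have a : ∀ j, ContinuousOn (fun p : ℝ × (ι ⊕ κ → ℂ) => mm N p.1 (al p.1 p.2 j))
      {p | X1 < p.1 ∧ p.2 ∈ DX N r δ p.1} := fun j p hp =>
    (cont_mm (hjAdm (h.adm _ (hs hp).1 _ hp.2 j) (by linarith [hp.1]) (by nlinarith [hp.1]))
      hN).comp_continuousWithinAt_of_eq (f := fun p : ℝ × (ι ⊕ κ → ℂ) => (p.1, al p.1 p.2 j))
      (continuousWithinAt_fst.prodMk ((h.cont j).mono hs p hp)) rfl
  have b : ContinuousOn (fun p : ℝ × (ι ⊕ κ → ℂ) => deriv (fun s : ℝ => f s p.2) p.1)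
      {p | X1 < p.1 ∧ p.2 ∈ DX N r δ p.1} :=
    (((h.c1.mono hs).continuousOn_fderiv_of_isOpen (isOpen_DX N r δ x1 h2) le_rfl).clm_apply
      continuousOn_const).congr fun p hp => (slice h h0 x1 h2 hp.1 hp.2).deriv
  have c : ContinuousOn (fun p : ℝ × (ι ⊕ κ → ℂ) => rt N p.1)
      {p | X1 < p.1 ∧ p.2 ∈ DX N r δ p.1} := by
    refine ContinuousOn.congr (Continuous.continuousOn ?_) fun p hp => rt_eq (x1.trans hp.1)
    have := HJ.kap_pos N
    have := Real.pi_pos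
    exact (Continuous.div (by fun_prop) (by fun_prop) fun p => by positivity).neg
  exact (a j).add ((((Complex.continuous_ofReal.comp_continuousOn c).mul b).sub
    (continuousOn_finsetSum _ fun j _ => a j)).div_const _)

set_option maxHeartbeats 400000 in
theorem giS : GiS := by
  intro C0 p
  obtain ⟨N0, hm⟩ := mmS C0 p
  refine ⟨max N0 HJ.N0, fun N hN ι κ _ _ f al r δ X0 k C hp h => ?_⟩
  obtain ⟨Mj, C1, hK, hm⟩ := hm N (le_of_max_le_left hN)
  obtain ⟨⟨X1, C2, hc⟩, hs⟩ := hm C k h.k_pos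
  obtain ⟨X3, hX3⟩ := eventually_atTop.1 ((TL_cmp N).and (((TL_top N).eventually_ge_atTop 8).and
    (((tendsto_pow_atTop two_ne_zero).eventually_ge_atTop (2 * KK N)).and
      (eventually_ge_atTop (max (max X0 X1) 2)))))
  obtain ⟨-, b8, bK, bX⟩ := hX3 X3 le_rfl
  simp only [max_le_iff] at bX
  obtain ⟨⟨b0, b1⟩, b2⟩ := bX
  have x3 : 0 < X3 := by linarith
  have k0 := h.k_pos
  set g := min k 1 / 2 with hg
  have g0 : 0 < g := by positivity
  have g1 : 2 * g ≤ 1 := by linarith [min_le_right k 1]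
  have gk : 2 * g ≤ k := by linarith [min_le_left k 1]
  set C3 := |C| / (2 * Real.pi * HJ.kap N) with hC3
  have c3 : 0 ≤ C3 := by have := HJ.kap_pos N; positivity
  have c0' := abs_nonneg C
  have c1' := abs_nonneg C1
  have c2' := abs_nonneg C2
  have sp : ∀ B, TL N X3 < B → X3 < XL N B ∧ TL N (XL N B) = B := fun B hB => XL_spec N x3 hB
  have dm : ∀ B, TL N X3 < B → DX (ι := ι) (κ := κ) N r δ (XL N B) = DomB r δ (fun _ => 0) B :=
    fun B hB => by rw [DX, (sp B hB).2]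
  have mp : MapsTo (fun q : ℝ × (ι ⊕ κ → ℂ) => (XL N q.1, q.2))
      {q | TL N X3 < q.1 ∧ q.2 ∈ DomB r δ (fun _ => 0) q.1} {q | X3 < q.1 ∧ q.2 ∈ DX N r δ q.1} :=
    fun q hq => ⟨(sp _ hq.1).1, (dm _ hq.1).ge hq.2⟩
  have mc : ContDiffOn ℝ 1 (fun q : ℝ × (ι ⊕ κ → ℂ) => (XL N q.1, q.2))
      {q | TL N X3 < q.1 ∧ q.2 ∈ DomB r δ (fun _ => 0) q.1} :=
    ((XL_c1 N x3).comp contDiffOn_fst fun q hq => hq.1).prodMk contDiffOn_snd
  have key : ∀ X, X3 < X → ∀ z ∈ DX N r δ X, ‖er N f al X z‖ ≤ 2 * C3 * TL N X ^ (-(1 / 2 + g)) ∧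
      1 / X ^ 2 ≤ 2 * TL N X ^ (-(1 / 2 + g)) ∧ 0 ≤ TL N X ^ (-(1 / 2 + g)) := fun X hX z hz => by
    obtain ⟨⟨-, a1⟩, a2, -⟩ := hX3 X hX.le
    have x0 := x3.trans hX
    have a3 := rp_le (k := k) (by linarith : 1 ≤ X) (by linarith) a1 g0 (by linarith) gk
    have a4 := rp_le (k := 1) (by linarith : 1 ≤ X) (by linarith) a1 g0 (by linarith) g1
    rw [Real.rpow_neg x0.le, one_add_one_eq_two, Real.rpow_two, ← one_div] at a4
    refine ⟨(er_le h (b0.trans_lt hX) x0 hz).trans ?_, a4, Real.rpow_nonneg (by linarith) _⟩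
    nlinarith
  refine ⟨fun j B z => mm N (XL N B) (al (XL N B) z j) + er N f al (XL N B) z, Hk.ph (N + 1), Mj,
    om N, TL N X3, |C| + |C1| + 2 * |C2| + 2 * C3, g, h.r_pos, h.δ_pos, h.δ_le, b8,
    fun j => by simp; linarith, g0, by exact_mod_cast om_ne N, ?_, fun B hB => ?_,
    fun B hB z hz => ?_, fun B hB x hx => ?_, ?_, fun j => ?_,
    fun B hB z hz => ?_, fun B hB z hz j ha => ?_, fun B hB z hz j u ha hu => ?_,
    fun V ε hε => ?_⟩
  · rw [hp]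
    exact Hk.ker_mono hK (by linarith [le_abs_self C1])
  · rw [← dm B hB]
    exact h.hol _ (b0.trans_lt (sp B hB).1)
  · rw [← dm B hB] at hz
    exact (h.bdd _ (b0.trans_lt (sp B hB).1) z hz).trans (by linarith [le_abs_self C])
  · rw [← dm B hB] at hx
    exact h.real _ (b0.trans_lt (sp B hB).1) x hx
  · have a := h.c1.comp mc fun q hq => ⟨b0.trans_lt (mp hq).1, (mp hq).2⟩
    simp only [Function.comp_def] at a
    exact a
  · have a := (cont_m h (le_of_max_le_right hN) b0 b2 (by linarith) bK j).comp mc.continuousOn mp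
    simp only [Function.comp_def] at a
    exact a
  · have hz' : z ∈ DX N r δ (XL N B) := by rwa [dm B hB]
    have a := (slice h b0 x3 (by linarith) (sp B hB).1 hz').differentiableAt.hasDerivAt.scomp B
      (XL_der N x3 hB)
    rw [sum_m h (b0.trans_lt (sp B hB).1) hz', rt, (sp B hB).2]
    refine a.congr_deriv ?_
    have e1 : (om N : ℂ) ≠ 0 := by exact_mod_cast om_ne N
    have e2 : (Real.exp (-B / 4) : ℂ) ≠ 0 := by exact_mod_cast (Real.exp_pos _).ne'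
    rw [Complex.real_smul, Complex.ofReal_div, Complex.ofReal_mul]
    field_simp
  · obtain ⟨X, hX, rfl⟩ := exists_TL N x3 hB
    simp only [XL_TL N (x3.trans hX)]
    obtain ⟨a1, a2, a3⟩ := key X hX z hz
    have a4 := (hc X (b1.trans_lt hX) _ _ (h.adm X (b0.trans_lt hX) z hz j)
      (h.pos X (b0.trans_lt hX) z hz j)).1 ha
    have a5 := mul_le_mul (le_abs_self C2) a2 (by positivity) c2'
    rw [mul_one_div] at a5
    refine (norm_add_le _ _).trans ?_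
    nlinarith
  · obtain ⟨X, hX, rfl⟩ := exists_TL N x3 hB
    simp only [XL_TL N (x3.trans hX), sub_zero] at hu ⊢
    obtain ⟨a1, a2, a3⟩ := key X hX z hz
    have a4 := (hc X (b1.trans_lt hX) _ _ (h.adm X (b0.trans_lt hX) z hz j)
      (h.pos X (b0.trans_lt hX) z hz j)).2 u ha hu
    have a0 : 0 ≤ ((1 + ‖u‖) ^ 2)⁻¹ := by positivity
    have a5 := mul_le_mul (le_abs_self C2) (add_le_add_left a2 ((1 + ‖u‖) ^ 2)⁻¹)
      (by positivity) c2'
    refine (norm_add_le _ _).trans ?_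
    nlinarith
  · obtain ⟨X2, hs⟩ := hs V (ε / 2) (half_pos hε)
    refine ⟨TL N (max (max X3 X2) (2 * C3 / ε)), 1, one_pos, fun B hB z hz _ j u hu hV hr => ?_⟩
    obtain ⟨X, hX, rfl⟩ := exists_TL N (x3.trans_le (by simp)) hB
    simp only [max_lt_iff] at hX
    obtain ⟨⟨hX, hX2⟩, hX4⟩ := hX
    have x0 := x3.trans hX
    simp only [XL_TL N x0, sub_zero] at hu ⊢
    have a4 := hs X hX2 _ _ u (h.adm X (b0.trans_lt hX) z hz j) (h.pos X (b0.trans_lt hX) z hz j)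
      hu hV hr
    have a1 := er_le h (b0.trans_lt hX) x0 hz
    have a2 : X ^ (-(1 + k)) ≤ X ^ (-1 : ℝ) :=
      Real.rpow_le_rpow_of_exponent_le (by linarith) (by linarith)
    rw [Real.rpow_neg_one] at a2
    have a3 : C3 * X⁻¹ ≤ ε / 2 := by
      rw [div_lt_iff₀ hε] at hX4
      rw [← div_eq_mul_inv, div_le_iff₀ x0]; linarith
    rw [add_sub_right_comm]
    refine (norm_add_le _ _).trans ?_
    nlinarith

end Crest.Agent.N250.Gi.T

end
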