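import Crest.Agent.N250.Hk.Tip

/-!
# Row 250 (helper11 for helper62): the normalised residual `mm` and its bounds
-/

set_option autoImplicit false
open Set Filter Topology

noncomputable section

namespace Crest.Agent.N250.Gi.T

open B1

/-- `η^{1/2} (ν - cos) / κ` -/
def z0 (N : ℕ) (X : ℝ) (α : ℂ) : ℂ :=
  X * HJ.rr (et α X) * (HJ.nu N X (et α X) - HJ.cs N X (et α X)) / HJ.kap N

/-- the normalised residual -/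
def mm (N : ℕ) (X : ℝ) (α : ℂ) : ℂ :=
  Complex.exp (-et α X / 2) * z0 N X α * ((X ^ 2 / (X ^ 2 + 4) : ℝ) : ℂ)

theorem mm_eq_m0 (N : ℕ) (X : ℝ) (α : ℂ) : mm N X α = Hk.m0 N X (et α X) := by
  have hkc : (HJ.kap N : ℂ) ≠ 0 := by exact_mod_cast (HJ.kap_pos N).ne'
  have e : HJ.EE X (et α X) * (Real.exp (X ^ 2 / 4) : ℝ) = Complex.exp (-et α X / 2) := by
    rw [HJ.EE, Complex.ofReal_exp, ← Complex.exp_add]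
    congr 1
    push_cast
    ring
  have h4 : ((X : ℂ) ^ 2 + 4) ≠ 0 := by exact_mod_cast (by positivity : X ^ 2 + 4 ≠ 0)
  rw [mm, z0, Hk.m0, HJ.R, ← e]
  push_cast
  field_simp

theorem mmS (C0 : ℝ) (p : ℕ) : ∃ N0, ∀ N, N0 ≤ N → ∃ Mj C1, B2.Ker (Hk.ph (N + 1)) Mj p C1 ∧
    ∀ C k : ℝ, 0 < k →
      (∃ X1 C2 : ℝ, ∀ X, X1 < X → ∀ α a : ℂ, B1.Adm (KK N) X α →
        ‖hat X α - a‖ ≤ (C0 / ((N : ℝ) + 1) + C * X ^ (-k)) / X ^ 4 →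
        (‖a‖ ≤ 1 / TL N X → ‖mm N X α‖ ≤ C2 / X ^ 2) ∧
        ∀ u : ℂ, 1 / TL N X ≤ ‖a‖ → a * ((TL N X : ℝ) + u) = -2 →
          ‖mm N X α‖ ≤ C2 * (((1 + ‖u‖) ^ 2)⁻¹ + 1 / X ^ 2)) ∧
      ∀ V ε : ℝ, 0 < ε → ∃ X2 : ℝ, ∀ X, X2 < X → ∀ α a u : ℂ, B1.Adm (KK N) X α →
        ‖hat X α - a‖ ≤ (C0 / ((N : ℝ) + 1) + C * X ^ (-k)) / X ^ 4 →
        a * ((TL N X : ℝ) + u) = -2 → ‖u‖ ≤ V → -1 ≤ u.re →
          ‖mm N X α - Hk.ph (N + 1) u‖ ≤ Mj u.im + ε := by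
  obtain ⟨N₁, -, h⟩ := Hk.tip C0 p
  refine ⟨N₁, fun N hN => ?_⟩
  obtain ⟨Mj, Ck, hK, h1⟩ := h N hN
  refine ⟨Mj, Ck, hK, fun C k hk => ?_⟩
  obtain ⟨⟨C₁, -, h2⟩, h3⟩ := h1 k C hk
  simp only [mm_eq_m0]
  refine ⟨?_, fun V ε hε => ?_⟩
  · obtain ⟨X1, h4⟩ := eventually_atTop.1 h2
    exact ⟨X1, C₁, fun X hX => h4 X hX.le⟩
  · obtain ⟨X2, h4⟩ := eventually_atTop.1 (h3 V ε hε)
    exact ⟨X2, fun X hX => h4 X hX.le⟩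

end Crest.Agent.N250.Gi.T

end
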