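import Crest.Agent.N250.Gi.Tq1
import Crest.Agent.N250.B1.Far3
import Crest.Agent.N250.Act.Inst

/-! # Row 250 (helper75): the torque of an end is quadratically small -/

set_option autoImplicit false

open Set Filter Topology Metric Complex intervalIntegral

noncomputable section

namespace Crest.Agent.N250.Far

open B1

variable {ℓ : Ell}

/-- a function with modes `± 1` only, bounded by `1` -/
def M1 (f : ℝ → ℂ) : Prop :=
  (∀ θ, ‖f θ‖ ≤ 1) ∧ ∃ A B : ℂ, ∀ θ, f θ = A * Wi.ex 1 θ + B * Wi.ex (-1) θ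

lemma m1_cos : M1 fun θ => (Real.cos θ : ℂ) :=
  ⟨fun θ => by rw [Complex.norm_real]; exact Real.abs_cos_le_one θ, 1 / 2, 1 / 2, fun θ => by
    simp only [Wi.ex, ofReal_cos, Complex.cos]; push_cast; ring_nf⟩

lemma m1_sin : M1 fun θ => (Real.sin θ : ℂ) :=
  ⟨fun θ => by rw [Complex.norm_real]; exact Real.abs_sin_le_one θ, -I / 2, I / 2, fun θ => by
    simp only [Wi.ex, ofReal_sin, Complex.sin]; push_cast; ring_nf⟩

lemma M1.neg {f : ℝ → ℂ} (h : M1 f) : M1 fun θ => -f θ := by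
  obtain ⟨h1, A, B, h2⟩ := h
  exact ⟨fun θ => by rw [norm_neg]; exact h1 θ, -A, -B, fun θ => by simp only [h2]; ring⟩

lemma M1.cont {f : ℝ → ℂ} (h : M1 f) : Continuous f := by
  obtain ⟨-, A, B, h2⟩ := h
  rw [funext h2]
  exact (continuous_const.mul (Wi.continuous_ex _)).add (continuous_const.mul (Wi.continuous_ex _))

lemma M1.mean {f : ℝ → ℂ} (h : M1 f) : ∫ θ in (0 : ℝ)..(2 * Real.pi), f θ = 0 := by
  obtain ⟨-, A, B, h2⟩ := h
  simp only [h2]
  rw [integral_add (((Wi.continuous_ex _).const_mul _).intervalIntegrable _ _)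
    (((Wi.continuous_ex _).const_mul _).intervalIntegrable _ _), integral_const_mul,
    integral_const_mul, Wi.integral_ex, Wi.integral_ex]
  simp

lemma val_mode (u : Wi (om ℓ)) (s : II) (k : ℤ) :
    ∫ θ in (0 : ℝ)..(2 * Real.pi), Wi.ex (-k) θ * val u s θ = 2 * Real.pi * Wi.co u k s := by
  have h := Wi.integral_syn u k
  have h2 := (ContinuousMap.evalCLM ℂ s).intervalIntegral_comp_comm
    (((Wi.continuous_ex (-k)).smul (Wi.continuous_syn u)).intervalIntegrable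
      (μ := MeasureTheory.volume) 0 (2 * Real.pi))
  simp only [Pi.smul_apply'] at h2
  rw [h] at h2
  simpa [val] using h2

lemma M1.orth {f : ℝ → ℂ} (h : M1 f) {u : Wi (om ℓ)} {s : II} (h1 : Wi.co u 1 s = 0)
    (h2 : Wi.co u (-1) s = 0) : ∫ θ in (0 : ℝ)..(2 * Real.pi), val u s θ * f θ = 0 := by
  obtain ⟨-, A, B, h3⟩ := h
  have e : ∀ θ, val u s θ * f θ =
      A * (Wi.ex (- -1) θ * val u s θ) + B * (Wi.ex (-1) θ * val u s θ) := fun θ => by
    rw [h3, neg_neg]; ring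
  simp only [e]
  rw [integral_add
    ((((Wi.continuous_ex _).fun_mul (val_cont u s)).const_mul _).intervalIntegrable _ _)
    ((((Wi.continuous_ex _).fun_mul (val_cont u s)).const_mul _).intervalIntegrable _ _),
    integral_const_mul, integral_const_mul, val_mode, val_mode, h1, h2]
  simp

/-- **the torque at the cut**: symmetric slope `h`, `β = 0` -/
theorem tq_one {R K g g' X e : ℝ} {a h : ℂ} {c0 : CI} {Dt : Dat ℓ} {J : Jt ℓ} {c σ : ℝ → ℂ}
    (hg : Ex g g') (hK : 0 ≤ K) (hX : 2 ≤ X) (hA : Adm K X a) (he : e ≤ 1 / 64)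
    (hj : IsJet c0 J) (hbc : BC Dt J) (hH : Dt.2.1 = Wi.single _ 0 h) (hp : Dt.2.2.1 = 0)
    (hm : Dt.2.2.2 = 0) (hB : InB R K g g' X a e J) (hP : ‖a * X + h‖ ^ 2 ≤ ‖et a X‖ / 4)
    (hc : M1 c) (hσ : M1 σ) :
    ‖Act.torque 1 (ex (gam R X)) (Act.vf R X a J 0) (Act.vf R X a J 1) (Act.vf R X a J 3) c σ‖ ≤
      2 * Real.pi * Real.exp (-X ^ 2 / 4) * (X ^ (-g)) ^ 2 * (56 + 5 * (X * ‖a * X + h‖)) := by
  obtain ⟨hV, hV4, -, hρ⟩ := adm_V hK hX hA
  obtain ⟨g1, g2, g3⟩ := hg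
  set V := et a X with hVd
  set P := a * X + h
  have hV0 : 0 < ‖V‖ := hV.trans_le (Complex.re_le_norm V)
  have hX0 : 0 < X := by linarith
  have hxg : X ^ (-g) ≤ 1 := Real.rpow_le_one_of_one_le_of_nonpos (by linarith) (by linarith)
  have hxg0 : 0 < X ^ (-g) := Real.rpow_pos_of_pos hX0 _
  have hW : 0 ≤ W g g' a X := by unfold W; positivity
  have n1 := fun θ => val_le hB.b0 (s := i1) hbc.far0 (by rw [xr_one]; exact hρ)
    (by rw [xr_one]; exact hW) θ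
  have n3 := fun θ => val_le hB.b3 (s := i1) (by rw [hj.t0]; simp) one_pos
    (by rw [xr_one]; exact hW) θ
  rw [xr_one] at n1 n3
  have hκ : ‖V‖ ^ (g' - 1) ≤ 4 := by
    calc ‖V‖ ^ (g' - 1) ≤ (4 : ℝ) ^ (g' - 1) := Real.rpow_le_rpow hV0.le (by linarith) (by linarith)
      _ ≤ (4 : ℝ) ^ (1 : ℝ) := Real.rpow_le_rpow_of_exponent_le (by norm_num) (by linarith)
      _ = 4 := Real.rpow_one _
  have hle : e * W g g' a X ≤ X ^ (-g) / 16 * ‖V‖ := by
    have eW : W g g' a X = X ^ (-g) * ‖V‖ * ‖V‖ ^ (g' - 1) := by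
      rw [W, ← hVd, mul_assoc, Real.rpow_sub_one hV0.ne']; field_simp
    have h1 := mul_le_mul_of_nonneg_right he hW
    have h2 := mul_le_mul_of_nonneg_left hκ (mul_pos hxg0 hV0).le
    rw [eW] at h1 ⊢; linarith
  have f1 : Wi.co (J 0) 1 i1 = 0 := hbc.farp.trans hp
  have f2 : Wi.co (J 0) (-1) i1 = 0 := hbc.farm.trans hm
  have key := tq_far (X := X) (V := V) (P := P) (n := val (J 0) i1) (t := val (J 3) i1) (c := c)
    (σ := σ) (ε := X ^ (-g) / 16) hV (by linarith) hP (by linarith)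
    (val_cont _ _).continuousOn (val_cont _ _).continuousOn hc.cont.continuousOn
    hσ.cont.continuousOn (fun θ _ => (n1 θ).trans hle) (fun θ _ => (n3 θ).trans hle)
    (fun θ _ => hc.1 θ) (fun θ _ => hσ.1 θ) hc.mean (hc.orth f1 f2)
    (hσ.orth (by rw [hj.t0]; simp [f1]) (by rw [hj.t0]; simp [f2]))
  have e1 : Act.torque 1 (ex (gam R X)) (Act.vf R X a J 0) (Act.vf R X a J 1) (Act.vf R X a J 3) c σ =
      ∫ θ in (0 : ℝ)..(2 * Real.pi),
        Act.Mx X (V + val (J 0) i1 θ) P (val (J 3) i1 θ) (c θ) (σ θ) := by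
    refine intervalIntegral.integral_congr fun θ _ => ?_
    have e0 : projIcc (0 : ℝ) 1 zero_le_one 1 = i1 := projIcc_right _
    simp only [Act.vf, e0, ex_1, vj, gam_one, val_slope hbc hH, Matrix.cons_val_zero,
      Matrix.cons_val_one, Matrix.cons_val]
    rfl
  rw [e1]
  refine key.trans ?_
  have hE : ‖Act.Ef X V‖ ≤ Real.exp (-X ^ 2 / 4) := by
    rw [Act.Ef, Complex.norm_exp]
    refine Real.exp_le_exp.2 ?_
    have : (-(X : ℂ) ^ 2 / 4 - V / 2).re = -X ^ 2 / 4 - V.re / 2 := by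
      rw [show (-(X : ℂ) ^ 2 / 4 - V / 2) = ((-X ^ 2 / 4 : ℝ) : ℂ) - V / 2 by push_cast; ring]
      simp only [sub_re, ofReal_re, div_ofNat_re]
    rw [this]; linarith
  rw [norm_mul, Complex.norm_real, Real.norm_of_nonneg hX0.le]
  have h1 : 0 ≤ X * ‖P‖ := by positivity
  calc _ ≤ 2 * Real.pi * (Real.exp (-X ^ 2 / 4) * (X ^ (-g) / 16) ^ 2 *
        (256 * (56 + 5 * (X * ‖P‖)))) := by gcongr; linarith
    _ = _ := by ring

lemma slope_sq {N : ℕ} {X : ℝ} {V : ℂ} (h : HJ.Adm N X V) (hN : HJ.N0 ≤ N) (hX : 0 < X) :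
    X * ‖HJ.slope N X V‖ ≤ 24 ∧ ‖HJ.slope N X V‖ ^ 2 ≤ ‖V‖ / 4 := by
  have hN0 : (1000000 : ℝ) ≤ N := by exact_mod_cast hN
  have hs := slope_le h hN
  rw [Complex.norm_real, Real.norm_eq_abs, abs_of_pos hX] at hs
  have hV : 0 < ‖V‖ := h.hV.trans_le (re_le_norm _)
  have h1 := h.hw
  rw [HJ.ww, norm_div, norm_one, norm_mul, norm_mul, norm_pow, Complex.norm_real, Complex.norm_two,
    Real.norm_eq_abs, sq_abs, div_le_div_iff₀ (by positivity) (by positivity)] at h1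
  refine ⟨by rwa [← le_div_iff₀' hX], (pow_le_pow_left₀ (norm_nonneg _) hs 2).trans ?_⟩
  rw [div_pow, div_le_iff₀ (by positivity)]
  linarith

/-- **the torque of an end with the Hamilton–Jacobi slope**, on every circle `s` -/
theorem tq_HJ {N : ℕ} {R K g g' X e : ℝ} {a : ℂ} {Dt : Dat ℓ} {J : Jt ℓ} {c σ : ℝ → ℂ}
    (hN : HJ.N0 ≤ N) (hg : Ex g g') (hK : 0 ≤ K) (hX : 2 ≤ X) (hA : Adm K X a)
    (hA' : HJ.Adm N X (et a X)) (he : e ≤ 1 / 64) (hs : Sol R (X, a, Dt) J)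
    (hH : Dt.2.1 = Wi.single _ 0 (HJ.slope N X (et a X) - a * X)) (hp : Dt.2.2.1 = 0)
    (hm : Dt.2.2.2 = 0) (hB : InB R K g g' X a e J) (hr : RegJ R X a J)
    (h2 : ∀ s θ, 0 < (vj R X a J s θ 0).re) (A : Act.Ang c σ) (hc : M1 c) (hσ : M1 σ) {s : ℝ}
    (h : s ∈ Icc (0 : ℝ) 1) :
    ‖Act.torque s (ex (gam R X)) (Act.vf R X a J 0) (Act.vf R X a J 1) (Act.vf R X a J 3) c σ‖ ≤
      2 * Real.pi * Real.exp (-X ^ 2 / 4) * (X ^ (-g)) ^ 2 * 176 := by
  obtain ⟨k1, k2⟩ := slope_sq hA' hN (by linarith)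
  have eP : a * X + (HJ.slope N X (et a X) - a * X) = HJ.slope N X (et a X) := by ring
  have h3 := Act.torque_sol (z := (X, a, Dt)) hs hr
    (fun s θ => Or.inl (by have := h2 s θ; simp only [mul_re, re_ofNat, im_ofNat]; linarith)) A h
  refine (congrArg norm h3).trans_le
    ((tq_one hg hK hX hA he hs.jet hs.bc hH hp hm hB (by rwa [eP]) hc hσ).trans ?_)
  rw [eP]
  gcongr
  linarith

end Crest.Agent.N250.Far
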