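import Crest.Agent.N250.B1.Far
import Crest.Agent.N250.Act.Rot

/-! # Row 250 (helper75): the torque at the far circle is quadratic in the non-symmetric part -/

set_option autoImplicit false

open Set Filter Topology Metric Complex intervalIntegral

noncomputable section

namespace Crest.Agent.N250.Far

open Act

lemma ii {f : ℝ → ℂ} (hf : ContinuousOn f (Icc 0 (2 * Real.pi))) :
    IntervalIntegrable f MeasureTheory.volume 0 (2 * Real.pi) :=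
  (hf.mono (uIcc_of_le tp_pos).subset).intervalIntegrable

lemma int_le {f : ℝ → ℂ} {C : ℝ} (hf : ∀ θ ∈ Icc 0 (2 * Real.pi), ‖f θ‖ ≤ C) :
    ‖∫ θ in (0 : ℝ)..(2 * Real.pi), f θ‖ ≤ 2 * Real.pi * C := by
  have := norm_integral_le_of_norm_le_const (a := 0) (b := 2 * Real.pi) (f := f) (C := C)
    (fun θ hθ => by rw [uIoc_of_le tp_pos] at hθ; exact hf θ (Ioc_subset_Icc_self hθ))
  rw [sub_zero, abs_of_nonneg tp_pos] at this
  linarith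

/-- second order Taylor formula in the scaled variables -/
lemma tay_pt {G : ℂ × ℂ → ℂ} {M ε : ℝ} (hG : DifferentiableOn ℂ G (ball 0 (1 / 8)))
    (hM : ∀ z ∈ ball (0 : ℂ × ℂ) (1 / 8), ‖G z‖ ≤ M) (hε : ε ≤ 1 / 16) {u τ : ℂ} (hu : ‖u‖ ≤ ε)
    (hτ : ‖τ‖ ≤ ε ^ 2) : (u, τ) ∈ ball (0 : ℂ × ℂ) (1 / 8) ∧ ‖G (u, τ) - G 0‖ ≤ 16 * M * ε ∧
      ‖G (u, τ) - G 0 - u * fderiv ℂ G 0 (1, 0)‖ ≤ 272 * M * ε ^ 2 := by
  have hε0 : 0 ≤ ε := (norm_nonneg _).trans hu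
  have hM0 : 0 ≤ M := (norm_nonneg _).trans (hM 0 (mem_ball_self (by norm_num)))
  have hz : ‖(u, τ)‖ ≤ ε := max_le hu (hτ.trans (by nlinarith))
  have hz' : (u, τ) ∈ ball (0 : ℂ × ℂ) (1 / 8) := by rw [mem_ball_zero_iff]; linarith
  refine ⟨hz', ?_, ?_⟩
  · refine (H.lip_le hG hM hz').trans ?_
    rw [sub_zero]
    have := mul_le_mul_of_nonneg_left hz (show 0 ≤ 2 * M / (1 / 8) by positivity)
    linarith
  set D := fderiv ℂ G 0 with hD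
  have hDn : ‖D‖ ≤ 2 * M / (1 / 8) := H.fd_le (by norm_num) hG hM
  have h1 := H.tay2 hG hM hz'
  rw [sub_zero, ← hD] at h1
  have h2 : D (u, τ) = u * D (1, 0) + D (0, τ) := by
    rw [← smul_eq_mul, ← map_smul, ← map_add]; simp
  have h3 : ‖D (0, τ)‖ ≤ 2 * M / (1 / 8) * ε ^ 2 := by
    refine (D.le_opNorm _).trans (mul_le_mul hDn ?_ (norm_nonneg _) (by positivity))
    simpa [Prod.norm_def] using hτ
  have h4 : G (u, τ) - G 0 - u * D (1, 0) = (G (u, τ) - G 0 - D (u, τ)) + D (0, τ) := by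
    rw [h2]; ring
  rw [h4]
  refine (norm_add_le _ _).trans ?_
  have h5 : (‖(u, τ)‖ / (1 / 8)) ^ 2 ≤ (ε / (1 / 8)) ^ 2 := by gcongr
  have h6 := mul_le_mul_of_nonneg_left h5 (show 0 ≤ 4 * M by positivity)
  nlinarith

/-- coefficient of `c` in the torque density -/
def GA (X V P : ℂ) (z : ℂ × ℂ) : ℂ :=
  Ef X (V + ‖V‖ * z.1) / Complex.sqrt (Qs V P z) * (Qs V P z - P ^ 2 - X * P) * Rf (V + ‖V‖ * z.1)

/-- coefficient of `- q σ` in the torque density -/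
def GB (X V P : ℂ) (z : ℂ × ℂ) : ℂ :=
  Ef X (V + ‖V‖ * z.1) / Complex.sqrt (Qs V P z) * (X * P) / Rf (V + ‖V‖ * z.1)

lemma Mx_eq {V : ℂ} (hV : 0 < V.re) (X P n t c σ : ℂ) : Mx X (V + n) P t c σ =
    GA X V P (n / ‖V‖, t ^ 2 / ‖V‖ ^ 2) * c - GB X V P (n / ‖V‖, t ^ 2 / ‖V‖ ^ 2) * (t * σ) := by
  simp only [GA, GB, Mx, Wf, (Qs_eq hV P n t).1, (Qs_eq hV P n t).2]
  ring

section bounds
variable {X V P : ℂ} (hV : 0 < V.re) {z : ℂ × ℂ} (hz : z ∈ ball (0 : ℂ × ℂ) (1 / 8))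
include hV hz

lemma two_v_slit : 2 * (V + ‖V‖ * z.1) ∈ slitPlane := by
  have h := Qs_slit (P := 0) (z := (z.1, 0)) hV (by simp; positivity) (by
    rw [mem_ball_zero_iff] at hz ⊢
    exact lt_of_le_of_lt (by simp [Prod.norm_def]) hz)
  simpa [Qs] using h

lemma Rf_norm : √‖V‖ ≤ ‖Rf (V + ‖V‖ * z.1)‖ ∧ ‖Rf (V + ‖V‖ * z.1)‖ ≤ 2 * √‖V‖ := by
  obtain ⟨h1, h2⟩ := v_ge hV hz
  have h0 := V_pos hV hz
  have h3 := norm_add_le V (‖V‖ * z.1)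
  rw [Rf, norm_csqrt, norm_mul, Complex.norm_two]
  refine ⟨Real.sqrt_le_sqrt (by linarith), ?_⟩
  rw [show 2 * √‖V‖ = √(4 * ‖V‖) by
    rw [Real.sqrt_mul (by norm_num), show (4 : ℝ) = 2 ^ 2 by norm_num, Real.sqrt_sq (by norm_num)]]
  exact Real.sqrt_le_sqrt (by linarith)

lemma Rf_diff : DifferentiableAt ℂ (fun z : ℂ × ℂ => Rf (V + ‖V‖ * z.1)) z :=
  (differentiableAt_sqrt (two_v_slit hV hz)).comp z (by fun_prop)

variable (hP : ‖P‖ ^ 2 ≤ ‖V‖ / 4)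
include hP

lemma GAB_diff : DifferentiableAt ℂ (GA X V P) z ∧ DifferentiableAt ℂ (GB X V P) z := by
  obtain ⟨h1, h2, h3⟩ := diff_parts (X := X) hV hP hz
  have h4 := Rf_diff hV hz
  have h5 : DifferentiableAt ℂ (Qs V P) z := by
    unfold Qs
    have := v_ne hV hz
    fun_prop (disch := exact mul_ne_zero two_ne_zero this)
  have h7 := Rf_ne (v_ne hV hz)
  unfold GA GB
  constructor
  · fun_prop (disch := exact h3)
  · fun_prop (disch := assumption)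

lemma GAB_le (hV4 : ‖V‖ ≤ 4) : ‖GA X V P z‖ ≤ 4 * ‖Ef X V‖ * (13 + ‖X * P‖) ∧
    ‖GB X V P z‖ ≤ 2 * ‖Ef X V‖ * ‖X * P‖ / ‖V‖ := by
  have h0 := V_pos hV hz
  have hs : 0 < √‖V‖ := Real.sqrt_pos.2 h0
  have h1 := Ef_le (X := X) hV hV4 hz
  obtain ⟨h2, h3⟩ := Qs_norm hV hP hz
  obtain ⟨h4, h5⟩ := Rf_norm hV hz
  have h6 : ‖Ef X (V + ‖V‖ * z.1) / Complex.sqrt (Qs V P z)‖ ≤ 2 * ‖Ef X V‖ / √‖V‖ := by
    rw [norm_div, norm_csqrt]; gcongr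
  constructor
  · have h7 : ‖Qs V P z - P ^ 2 - X * P‖ ≤ 13 + ‖X * P‖ := by
      refine (norm_sub_le _ _).trans (add_le_add ((norm_sub_le _ _).trans ?_) le_rfl)
      rw [norm_pow]; linarith
    rw [GA, norm_mul, norm_mul]
    refine (mul_le_mul (mul_le_mul h6 h7 (norm_nonneg _) (by positivity)) h5 (norm_nonneg _)
      (by positivity)).trans (le_of_eq ?_)
    field_simp; ring
  · rw [GB, norm_div, norm_mul]
    calc _ ≤ 2 * ‖Ef X V‖ / √‖V‖ * ‖X * P‖ / √‖V‖ := by gcongr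
      _ = 2 * ‖Ef X V‖ * ‖X * P‖ / (√‖V‖ * √‖V‖) := by field_simp
      _ = _ := by rw [Real.mul_self_sqrt h0.le]

end bounds

/-- **The torque at the cut.** `v = V + n(θ)`, `v_x = P` constant, `v_θ = t(θ)`, `|n|, |t| ≤ ε |V|`;
`1, n ⊥ c` and `t ⊥ σ`. -/
theorem tq_far {X V P : ℂ} {n t c σ : ℝ → ℂ} {ε : ℝ} (hV : 0 < V.re) (hV4 : ‖V‖ ≤ 4)
    (hP : ‖P‖ ^ 2 ≤ ‖V‖ / 4) (hε : ε ≤ 1 / 16)
    (cn : ContinuousOn n (Icc 0 (2 * Real.pi))) (ct : ContinuousOn t (Icc 0 (2 * Real.pi)))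
    (cc : ContinuousOn c (Icc 0 (2 * Real.pi))) (cσ : ContinuousOn σ (Icc 0 (2 * Real.pi)))
    (hn : ∀ θ ∈ Icc 0 (2 * Real.pi), ‖n θ‖ ≤ ε * ‖V‖)
    (ht : ∀ θ ∈ Icc 0 (2 * Real.pi), ‖t θ‖ ≤ ε * ‖V‖)
    (hc : ∀ θ ∈ Icc 0 (2 * Real.pi), ‖c θ‖ ≤ 1) (hσ : ∀ θ ∈ Icc 0 (2 * Real.pi), ‖σ θ‖ ≤ 1)
    (c0 : ∫ θ in (0 : ℝ)..(2 * Real.pi), c θ = 0)
    (n0 : ∫ θ in (0 : ℝ)..(2 * Real.pi), n θ * c θ = 0)
    (t0 : ∫ θ in (0 : ℝ)..(2 * Real.pi), t θ * σ θ = 0) :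
    ‖∫ θ in (0 : ℝ)..(2 * Real.pi), Mx X (V + n θ) P (t θ) (c θ) (σ θ)‖ ≤
      2 * Real.pi * (‖Ef X V‖ * ε ^ 2 * (14144 + 1120 * ‖X * P‖)) := by
  have h0 : 0 < ‖V‖ := hV.trans_le (Complex.re_le_norm V)
  have hu : ∀ θ ∈ Icc 0 (2 * Real.pi), ‖n θ / ‖V‖‖ ≤ ε := fun θ hθ => by
    rw [norm_div, Complex.norm_real, norm_norm, div_le_iff₀ h0]; exact hn θ hθ
  have hτ : ∀ θ ∈ Icc 0 (2 * Real.pi), ‖t θ ^ 2 / (‖V‖ : ℂ) ^ 2‖ ≤ ε ^ 2 := fun θ hθ => by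
    rw [norm_div, norm_pow, norm_pow, Complex.norm_real, norm_norm, div_le_iff₀ (by positivity),
      ← mul_pow]
    gcongr; exact ht θ hθ
  have hε0 : 0 ≤ ε := (norm_nonneg _).trans (hu 0 (left_mem_Icc.2 tp_pos))
  have dA : DifferentiableOn ℂ (GA X V P) (ball 0 (1 / 8)) := fun z hz =>
    (GAB_diff hV hz hP).1.differentiableWithinAt
  have dB : DifferentiableOn ℂ (GB X V P) (ball 0 (1 / 8)) := fun z hz =>
    (GAB_diff hV hz hP).2.differentiableWithinAt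
  have tA := fun θ hθ => tay_pt dA (fun _ hz => (GAB_le hV hz hP hV4).1) hε (hu θ hθ) (hτ θ hθ)
  have tB := fun θ hθ => tay_pt dB (fun _ hz => (GAB_le hV hz hP hV4).2) hε (hu θ hθ) (hτ θ hθ)
  have cz : ContinuousOn (fun θ => (n θ / ‖V‖, t θ ^ 2 / (‖V‖ : ℂ) ^ 2)) (Icc 0 (2 * Real.pi)) :=
    (cn.div_const _).prodMk ((ct.pow 2).div_const _)
  have cA := dA.continuousOn.comp cz fun θ hθ => (tA θ hθ).1
  have cB := dB.continuousOn.comp cz fun θ hθ => (tA θ hθ).1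
  set A : ℝ → ℂ := fun θ => GA X V P (n θ / ‖V‖, t θ ^ 2 / (‖V‖ : ℂ) ^ 2) with hA
  set B : ℝ → ℂ := fun θ => GB X V P (n θ / ‖V‖, t θ ^ 2 / (‖V‖ : ℂ) ^ 2) with hB
  change ContinuousOn A _ at cA
  change ContinuousOn B _ at cB
  set A0 := GA X V P 0
  set B0 := GB X V P 0
  set D := fderiv ℂ (GA X V P) 0 (1, 0)
  have e1 : ∀ θ, Mx X (V + n θ) P (t θ) (c θ) (σ θ) =
      ((A θ - A0 - n θ / ‖V‖ * D) * c θ - (B θ - B0) * (t θ * σ θ)) +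
        (A0 * c θ + D / ‖V‖ * (n θ * c θ) - B0 * (t θ * σ θ)) := fun θ => by
    rw [Mx_eq hV]; simp only [hA, hB]; ring
  have k1 : ContinuousOn (fun θ => (A θ - A0 - n θ / ‖V‖ * D) * c θ - (B θ - B0) * (t θ * σ θ))
      (Icc 0 (2 * Real.pi)) :=
    (((cA.sub continuousOn_const).sub ((cn.div_const _).mul continuousOn_const)).mul cc).sub
      ((cB.sub continuousOn_const).mul (ct.mul cσ))
  have k2 : ContinuousOn (fun θ => A0 * c θ) (Icc 0 (2 * Real.pi)) := continuousOn_const.mul cc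
  have k3 : ContinuousOn (fun θ => D / ‖V‖ * (n θ * c θ)) (Icc 0 (2 * Real.pi)) :=
    continuousOn_const.mul (cn.mul cc)
  have k4 : ContinuousOn (fun θ => B0 * (t θ * σ θ)) (Icc 0 (2 * Real.pi)) :=
    continuousOn_const.mul (ct.mul cσ)
  simp only [e1]
  rw [integral_add (ii k1) (((ii k2).add (ii k3)).sub (ii k4)),
    integral_sub ((ii k2).add (ii k3)) (ii k4), integral_add (ii k2) (ii k3), integral_const_mul,
    integral_const_mul, integral_const_mul, c0, n0, t0]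
  simp only [mul_zero, add_zero, sub_zero]
  refine int_le fun θ hθ => (norm_sub_le _ _).trans ?_
  rw [norm_mul, norm_mul, norm_mul]
  have a1 := mul_le_mul (tA θ hθ).2.2 (hc θ hθ) (norm_nonneg _) (by positivity)
  have a2 := mul_le_mul (tB θ hθ).2.1
    (mul_le_mul (ht θ hθ) (hσ θ hθ) (norm_nonneg _) (by positivity)) (by positivity) (by positivity)
  refine (add_le_add a1 a2).trans (le_of_eq ?_)
  field_simp; ring

end Crest.Agent.N250.Far
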